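import Vale.Agent.P224.SP.UPoly

/-!
Constants (logarithms and square roots) to 18 digits, and polynomial approximations of `log` on
`[2^(-k-1), 2^(-k)]`.
-/

namespace Vale.Agent.P224.SP

open Real Finset

/-! ### Constants -/

private lemma artanh_aux {x : ℝ} (h0 : |x| < 1) (n : ℕ) :
    |(Real.log (1 + x) - Real.log (1 - x)) -
      (∑ i ∈ range n, x ^ (i + 1) / (i + 1) - ∑ i ∈ range n, (-x) ^ (i + 1) / (i + 1))| ≤
      2 * (|x| ^ (n + 1) / (1 - |x|)) := by
  have h1 := Real.abs_log_sub_add_sum_range_le h0 n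
  have h2 := Real.abs_log_sub_add_sum_range_le (x := -x) (by rwa [abs_neg]) n
  rw [abs_neg, sub_neg_eq_add] at h2
  rw [abs_le] at h1 h2 ⊢
  constructor <;> linarith [h1.1, h1.2, h2.1, h2.2]

private lemma la_bd : |(10 : ℝ) ^ 21 * (4 * Real.log 2 - Real.log 3 - Real.log 5) -
    64538521137571171673| ≤ 1 := by
  have h := artanh_aux (x := 1 / 31) (by rw [abs_of_nonneg] <;> norm_num) 14
  have e : Real.log (1 + 1 / 31) - Real.log (1 - 1 / 31) =
      4 * Real.log 2 - Real.log 3 - Real.log 5 := by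
    rw [← Real.log_div (by norm_num) (by norm_num)]
    have e1 : ((1 + 1 / 31 : ℝ) / (1 - 1 / 31)) = 2 ^ 4 / (3 * 5) := by norm_num
    rw [e1, Real.log_div (by norm_num) (by norm_num), Real.log_pow,
      Real.log_mul (by norm_num) (by norm_num)]
    push_cast; ring
  rw [e, abs_of_nonneg (by norm_num : (0 : ℝ) ≤ 1 / 31)] at h
  simp only [Finset.sum_range_succ, Finset.sum_range_zero] at h
  rw [abs_le] at h ⊢
  norm_num at h ⊢
  constructor <;> linarith [h.1, h.2]

private lemma lb_bd : |(10 : ℝ) ^ 21 * (2 * Real.log 5 - 3 * Real.log 2 - Real.log 3) -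
    40821994520255129555| ≤ 1 := by
  have h := artanh_aux (x := 1 / 49) (by rw [abs_of_nonneg] <;> norm_num) 12
  have e : Real.log (1 + 1 / 49) - Real.log (1 - 1 / 49) =
      2 * Real.log 5 - 3 * Real.log 2 - Real.log 3 := by
    rw [← Real.log_div (by norm_num) (by norm_num)]
    have e1 : ((1 + 1 / 49 : ℝ) / (1 - 1 / 49)) = 5 ^ 2 / (2 ^ 3 * 3) := by norm_num
    rw [e1, Real.log_div (by norm_num) (by norm_num), Real.log_pow,
      Real.log_mul (by norm_num) (by norm_num), Real.log_pow]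
    push_cast; ring
  rw [e, abs_of_nonneg (by norm_num : (0 : ℝ) ≤ 1 / 49)] at h
  simp only [Finset.sum_range_succ, Finset.sum_range_zero] at h
  rw [abs_le] at h ⊢
  norm_num at h ⊢
  constructor <;> linarith [h.1, h.2]

private lemma lc_bd : |(10 : ℝ) ^ 21 * (4 * Real.log 3 - 4 * Real.log 2 - Real.log 5) -
    12422519998557153311| ≤ 1 := by
  have h := artanh_aux (x := 1 / 161) (by rw [abs_of_nonneg] <;> norm_num) 10
  have e : Real.log (1 + 1 / 161) - Real.log (1 - 1 / 161) =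
      4 * Real.log 3 - 4 * Real.log 2 - Real.log 5 := by
    rw [← Real.log_div (by norm_num) (by norm_num)]
    have e1 : ((1 + 1 / 161 : ℝ) / (1 - 1 / 161)) = 3 ^ 4 / (2 ^ 4 * 5) := by norm_num
    rw [e1, Real.log_div (by norm_num) (by norm_num), Real.log_pow,
      Real.log_mul (by norm_num) (by norm_num), Real.log_pow]
    push_cast; ring
  rw [e, abs_of_nonneg (by norm_num : (0 : ℝ) ≤ 1 / 161)] at h
  simp only [Finset.sum_range_succ, Finset.sum_range_zero] at h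
  rw [abs_le] at h ⊢
  norm_num at h ⊢
  constructor <;> linarith [h.1, h.2]

/-- `log 2` with error `10^(-18)`. -/
theorem log_two_bd : |(10 : ℝ) ^ 18 * Real.log 2 - 693147180559945309| ≤ 1 := by
  have ha := la_bd
  have hb := lb_bd
  have hc := lc_bd
  rw [abs_le] at ha hb hc ⊢
  constructor <;> linarith [ha.1, ha.2, hb.1, hb.2, hc.1, hc.2]

/-- `log 3` with error `10^(-18)`. -/
theorem log_three_bd : |(10 : ℝ) ^ 18 * Real.log 3 - 1098612288668109691| ≤ 1 := by
  have ha := la_bd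
  have hb := lb_bd
  have hc := lc_bd
  rw [abs_le] at ha hb hc ⊢
  constructor <;> linarith [ha.1, ha.2, hb.1, hb.2, hc.1, hc.2]

/-- `log 5` with error `10^(-18)`. -/
theorem log_five_bd : |(10 : ℝ) ^ 18 * Real.log 5 - 1609437912434100375| ≤ 1 := by
  have ha := la_bd
  have hb := lb_bd
  have hc := lc_bd
  rw [abs_le] at ha hb hc ⊢
  constructor <;> linarith [ha.1, ha.2, hb.1, hb.2, hc.1, hc.2]

lemma log_83_eq : Real.log (8 / 3) = 3 * Real.log 2 - Real.log 3 := by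
  rw [Real.log_div (by norm_num) (by norm_num), show (8 : ℝ) = 2 ^ 3 by norm_num, Real.log_pow]
  push_cast; ring

lemma log_256_eq : Real.log (25 / 6) = 2 * Real.log 5 - Real.log 2 - Real.log 3 := by
  rw [Real.log_div (by norm_num) (by norm_num), show (25 : ℝ) = 5 ^ 2 by norm_num, Real.log_pow,
    show (6 : ℝ) = 2 * 3 by norm_num, Real.log_mul (by norm_num) (by norm_num)]
  push_cast; ring

lemma log_103_eq : Real.log (10 / 3) = Real.log 2 + Real.log 5 - Real.log 3 := by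
  rw [Real.log_div (by norm_num) (by norm_num), show (10 : ℝ) = 2 * 5 by norm_num,
    Real.log_mul (by norm_num) (by norm_num)]

/-- `log (8/3)` with error `10^(-18)`. -/
theorem log_83_bd : |(10 : ℝ) ^ 18 * Real.log (8 / 3) - 980829253011726237| ≤ 1 := by
  rw [log_83_eq]
  have ha := la_bd
  have hb := lb_bd
  have hc := lc_bd
  rw [abs_le] at ha hb hc ⊢
  constructor <;> linarith [ha.1, ha.2, hb.1, hb.2, hc.1, hc.2]

/-- `log (25/6)` with error `10^(-18)`. -/
theorem log_256_bd : |(10 : ℝ) ^ 18 * Real.log (25 / 6) - 1427116355640145748| ≤ 1 := by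
  rw [log_256_eq]
  have ha := la_bd
  have hb := lb_bd
  have hc := lc_bd
  rw [abs_le] at ha hb hc ⊢
  constructor <;> linarith [ha.1, ha.2, hb.1, hb.2, hc.1, hc.2]

/-- `log (10/3)` with error `10^(-18)`. -/
theorem log_103_bd : |(10 : ℝ) ^ 18 * Real.log (10 / 3) - 1203972804325935993| ≤ 1 := by
  rw [log_103_eq]
  have ha := la_bd
  have hb := lb_bd
  have hc := lc_bd
  rw [abs_le] at ha hb hc ⊢
  constructor <;> linarith [ha.1, ha.2, hb.1, hb.2, hc.1, hc.2]

private lemma sqrt15_lo : (3872983346207416885179265 : ℝ) / 10 ^ 24 ≤ Real.sqrt 15 := by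
  apply Real.le_sqrt_of_sq_le
  norm_num

private lemma sqrt15_hi : Real.sqrt 15 ≤ (3872983346207416885179266 : ℝ) / 10 ^ 24 := by
  rw [Real.sqrt_le_left (by norm_num)]
  norm_num

/-- `sqrt 15` with error `10^(-18)`. -/
theorem sqrt_15_bd : |(10 : ℝ) ^ 18 * Real.sqrt 15 - 3872983346207416885| ≤ 1 := by
  have h1 := sqrt15_lo
  have h2 := sqrt15_hi
  rw [abs_le]
  norm_num at h1 h2 ⊢
  constructor <;> linarith

lemma sqrt_35_eq : Real.sqrt (3 / 5) = Real.sqrt 15 / 5 := by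
  rw [Real.sqrt_eq_iff_mul_self_eq (by norm_num) (by positivity)]
  have h := Real.mul_self_sqrt (show (0 : ℝ) ≤ 15 by norm_num)
  nlinarith [h]

/-- `sqrt (3/5)` with error `10^(-18)`. -/
theorem sqrt_35_bd : |(10 : ℝ) ^ 18 * Real.sqrt (3 / 5) - 774596669241483377| ≤ 1 := by
  rw [sqrt_35_eq]
  have h1 := sqrt15_lo
  have h2 := sqrt15_hi
  rw [abs_le]
  norm_num at h1 h2 ⊢
  constructor <;> linarith

/-- `log (4 + sqrt 15)` with error `10^(-18)`. -/
theorem log_t_bd : |(10 : ℝ) ^ 18 * Real.log (4 + Real.sqrt 15) - 2063437068895560547| ≤ 1 := by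
  have h := artanh_aux (x := 8002065586676975481642 / 10 ^ 24)
    (by rw [abs_of_nonneg] <;> norm_num) 10
  rw [abs_of_nonneg (by norm_num : (0 : ℝ) ≤ 8002065586676975481642 / 10 ^ 24)] at h
  have h1 := sqrt15_lo
  have h2 := sqrt15_hi
  set s := Real.sqrt 15 with hs
  set p : ℝ := 1 + 8002065586676975481642 / 10 ^ 24 with hp
  set m : ℝ := 1 - 8002065586676975481642 / 10 ^ 24 with hm
  have hp0 : 0 < p := by rw [hp]; norm_num
  have hm0 : 0 < m := by rw [hm]; norm_num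
  -- `log (4 + s) = log 8 - (log p - log m) + log ((4 + s) p / (8 m))`
  have e : Real.log (4 + s) = 3 * Real.log 2 - (Real.log p - Real.log m) +
      Real.log ((4 + s) * p / (8 * m)) := by
    rw [Real.log_div (by positivity) (by positivity), Real.log_mul (by positivity) hp0.ne',
      Real.log_mul (by norm_num) hm0.ne', show (8 : ℝ) = 2 ^ 3 by norm_num, Real.log_pow]
    push_cast; ring
  have hr1 : |(4 + s) * p / (8 * m) - 1| ≤ 1 / 10 ^ 22 := by
    rw [div_sub_one (by positivity), abs_div, abs_of_pos (show 0 < 8 * m by positivity),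
      div_le_iff₀ (by positivity), abs_le]
    rw [hp, hm]
    norm_num at h1 h2 ⊢
    constructor <;> linarith
  have hr0 : 0 < (4 + s) * p / (8 * m) := by positivity
  have hr2 := Real.log_le_sub_one_of_pos hr0
  have hr3 : 1 - ((4 + s) * p / (8 * m))⁻¹ ≤ Real.log ((4 + s) * p / (8 * m)) :=
    Real.one_sub_inv_le_log_of_pos hr0
  rw [abs_le] at hr1
  have hr4 : ((4 + s) * p / (8 * m))⁻¹ ≤ 1 + 1 / 10 ^ 20 := by
    rw [inv_le_comm₀ hr0 (by positivity)]
    refine le_trans ?_ (by linarith [hr1.1] : 1 - 1 / 10 ^ 22 ≤ (4 + s) * p / (8 * m))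
    norm_num
  have h3 := log_two_bd
  have ha := la_bd
  have hb := lb_bd
  have hc := lc_bd
  rw [e]
  set L := Real.log ((4 + s) * p / (8 * m)) with hL
  have hL1 : L ≤ 1 / 10 ^ 20 := by
    have : (1 : ℝ) / 10 ^ 22 ≤ 1 / 10 ^ 20 := by norm_num
    linarith [hr1.2]
  have hL2 : -(1 / 10 ^ 20) ≤ L := by linarith
  simp only [Finset.sum_range_succ, Finset.sum_range_zero] at h
  rw [abs_le] at h ha hb hc ⊢
  norm_num at h ⊢
  norm_num at hL1 hL2
  constructor <;> linarith [h.1, h.2, ha.1, ha.2, hb.1, hb.2, hc.1, hc.2]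

/-! ### The logarithm on dyadic intervals -/

/-- `10^18 log T` on `[1/2, 1]`, error `12000`. -/
def lg0 : List ℤ := [
  -3896001269917819172, 26870057685088805927, -170423728368091697777, 904378579035460539312,
  -3798323542182111625467, 12719292038362979059485, -34392288408195125853957,
  75876877327998996199386, -137566001127361495450709, 205764133557560280786879,
  -254119799437867851573859, 258520499778661519157331, -215375295555114775850618,
  145465370075701486550707, -78409637518163101104755, 32935690412293055330662,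
  -10389181099894595847687, 2315052999353459510864, -324919719207503089244,
  21601310972243972692]

/-- `10^18 - T * (derivative of lg0)` -/
def rs0 : List ℤ := addL [10 ^ 18] (smulL (-1) (0 :: derL lg0))

lemma ev_rs0 (T : ℝ) : ev rs0 T = 10 ^ 18 - T * ev (derL lg0) T := by
  rw [rs0, ev_addL, ev_smulL]
  simp only [ev_cons, ev_nil]
  push_cast
  ring

/-- the 32 positivity tests -/
def allchk : Bool := (List.range 16).all fun k =>
  chk (16 + (k : ℤ)) (17 + (k : ℤ)) 32 (addL [12000] rs0) &&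
    chk (16 + (k : ℤ)) (17 + (k : ℤ)) 32 (addL [12000] (smulL (-1) rs0))

lemma allchk_true : allchk = true := by decide +kernel

lemma lg0_one : ev lg0 1 = 0 := by
  simp only [lg0, ev_cons, ev_nil]
  norm_num

lemma rs0_bd {T : ℝ} (h1 : 1 / 2 ≤ T) (h2 : T ≤ 1) : |ev rs0 T| ≤ 12000 := by
  have h := allchk_true
  rw [allchk, List.all_eq_true] at h
  have hex : ∃ k : ℕ, k < 16 ∧ ((16 + (k : ℤ) : ℤ) : ℝ) ≤ ((32 : ℤ) : ℝ) * T ∧
      ((32 : ℤ) : ℝ) * T ≤ ((17 + (k : ℤ) : ℤ) : ℝ) := by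
    rcases h2.lt_or_eq with h2 | h2
    · refine ⟨⌊32 * T - 16⌋₊, ?_, ?_, ?_⟩
      · rw [Nat.floor_lt (by linarith)]; push_cast; linarith
      · have := Nat.floor_le (show 0 ≤ 32 * T - 16 by linarith)
        push_cast; linarith
      · have := Nat.lt_floor_add_one (32 * T - 16)
        push_cast; linarith
    · refine ⟨15, by norm_num, ?_, ?_⟩ <;> rw [h2] <;> norm_num
  obtain ⟨k, hk, hA, hB⟩ := hex
  have hk' := h k (List.mem_range.2 hk)
  rw [Bool.and_eq_true] at hk'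
  have p1 := nonneg_of_chk hk'.1 hA hB
  have p2 := nonneg_of_chk hk'.2 hA hB
  rw [ev_addL] at p1 p2
  rw [ev_smulL] at p2
  simp only [ev_cons, ev_nil] at p1 p2
  push_cast at p1 p2
  rw [abs_le]
  constructor <;> linarith

/-- `log` on `[1/2, 1]`. -/
theorem lg0_bd {T : ℝ} (h1 : 1 / 2 ≤ T) (h2 : T ≤ 1) :
    |(10 : ℝ) ^ 18 * Real.log T - ev lg0 T| ≤ 12000 := by
  have hd : ∀ x ∈ Set.Icc (1 / 2 : ℝ) 1,
      HasDerivWithinAt (fun y => (10 : ℝ) ^ 18 * Real.log y - ev lg0 y)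
        ((10 : ℝ) ^ 18 * x⁻¹ - ev (derL lg0) x) (Set.Icc (1 / 2 : ℝ) 1) x := by
    intro x hx
    have hx0 : x ≠ 0 := by have := hx.1; intro h; rw [h] at this; norm_num at this
    exact (((Real.hasDerivAt_log hx0).const_mul _).sub (hasDerivAt_ev lg0 x)).hasDerivWithinAt
  have hb : ∀ x ∈ Set.Icc (1 / 2 : ℝ) 1,
      ‖(10 : ℝ) ^ 18 * x⁻¹ - ev (derL lg0) x‖ ≤ 24000 := by
    intro x hx
    have hx0 : 0 < x := by have := hx.1; linarith
    have e : (10 : ℝ) ^ 18 * x⁻¹ - ev (derL lg0) x = ev rs0 x / x := by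
      rw [ev_rs0]; field_simp
    rw [e, Real.norm_eq_abs, abs_div, abs_of_pos hx0, div_le_iff₀ hx0]
    have := rs0_bd hx.1 hx.2
    have := hx.1
    linarith
  have := (convex_Icc (1 / 2 : ℝ) 1).norm_image_sub_le_of_norm_hasDerivWithin_le hd hb
    (x := 1) (y := T) ⟨by norm_num, le_refl _⟩ ⟨h1, h2⟩
  rw [lg0_one, Real.log_one, Real.norm_eq_abs, Real.norm_eq_abs, abs_of_nonpos (by linarith :
    T - 1 ≤ 0)] at this
  have e : (10 : ℝ) ^ 18 * Real.log T - ev lg0 T - (10 ^ 18 * 0 - 0) =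
    (10 : ℝ) ^ 18 * Real.log T - ev lg0 T := by ring
  rw [e] at this
  linarith

/-- `(m a_0, m c a_1, m c^2 a_2, …)` -/
def scaleL (c : ℤ) : ℤ → List ℤ → List ℤ
  | _, [] => []
  | m, (a :: l) => (m * a) :: scaleL c (m * c) l

lemma ev_scaleL (c m : ℤ) (l : List ℤ) (x : ℝ) : ev (scaleL c m l) x = m * ev l (c * x) := by
  induction l generalizing m with
  | nil => simp [scaleL]
  | cons a l ih => simp only [scaleL, ev_cons, ih]; push_cast; ring

/-- `10^18 log T` on `[2^(-k-1), 2^(-k)]`, error `12000 + k`. -/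
def lg (k : ℕ) : List ℤ := addL [-((k : ℤ) * 693147180559945309)] (scaleL (2 ^ k) 1 lg0)

/-- `log` on `[2^(-k-1), 2^(-k)]`. -/
theorem lg_bd (k : ℕ) {T : ℝ} (h1 : 1 / 2 ≤ 2 ^ k * T) (h2 : 2 ^ k * T ≤ 1) :
    |(10 : ℝ) ^ 18 * Real.log T - ev (lg k) T| ≤ 12000 + k := by
  have h3 := lg0_bd h1 h2
  have hT : 0 < T := by
    have h : (0 : ℝ) < 2 ^ k := by positivity
    by_contra hc
    have : 2 ^ k * T ≤ 0 := mul_nonpos_of_nonneg_of_nonpos h.le (not_lt.1 hc)
    linarith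
  rw [Real.log_mul (by positivity) hT.ne', Real.log_pow] at h3
  rw [lg, ev_addL, ev_scaleL]
  simp only [ev_cons, ev_nil]
  have h4 := log_two_bd
  have hk : (0 : ℝ) ≤ k := Nat.cast_nonneg k
  rw [abs_le] at h3 h4 ⊢
  push_cast
  have h5 := mul_le_mul_of_nonneg_left h4.1 hk
  have h6 := mul_le_mul_of_nonneg_left h4.2 hk
  constructor <;> linarith [h3.1, h3.2, h5, h6]

/-- `[1/4, 1/2]` -/
theorem lg1_bd {T : ℝ} (h1 : 1 / 4 ≤ T) (h2 : T ≤ 1 / 2) :
    |(10 : ℝ) ^ 18 * Real.log T - ev (lg 1) T| ≤ 13000 :=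
  (lg_bd 1 (by linarith) (by linarith)).trans (by norm_num)

/-- `[1/8, 1/4]` -/
theorem lg2_bd {T : ℝ} (h1 : 1 / 8 ≤ T) (h2 : T ≤ 1 / 4) :
    |(10 : ℝ) ^ 18 * Real.log T - ev (lg 2) T| ≤ 13000 :=
  (lg_bd 2 (by linarith) (by linarith)).trans (by norm_num)

/-- `[1/16, 1/8]` -/
theorem lg3_bd {T : ℝ} (h1 : 1 / 16 ≤ T) (h2 : T ≤ 1 / 8) :
    |(10 : ℝ) ^ 18 * Real.log T - ev (lg 3) T| ≤ 13000 :=
  (lg_bd 3 (by linarith) (by linarith)).trans (by norm_num)

/-- `[1/32, 1/16]` -/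
theorem lg4_bd {T : ℝ} (h1 : 1 / 32 ≤ T) (h2 : T ≤ 1 / 16) :
    |(10 : ℝ) ^ 18 * Real.log T - ev (lg 4) T| ≤ 13000 :=
  (lg_bd 4 (by linarith) (by linarith)).trans (by norm_num)

/-- `[1/64, 1/32]` -/
theorem lg5_bd {T : ℝ} (h1 : 1 / 64 ≤ T) (h2 : T ≤ 1 / 32) :
    |(10 : ℝ) ^ 18 * Real.log T - ev (lg 5) T| ≤ 13000 :=
  (lg_bd 5 (by linarith) (by linarith)).trans (by norm_num)

/-- `[1/128, 1/64]` -/
theorem lg6_bd {T : ℝ} (h1 : 1 / 128 ≤ T) (h2 : T ≤ 1 / 64) :
    |(10 : ℝ) ^ 18 * Real.log T - ev (lg 6) T| ≤ 13000 :=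
  (lg_bd 6 (by linarith) (by linarith)).trans (by norm_num)

end Vale.Agent.P224.SP
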