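import Vale.Agent.P224.SP.Fun5
import Vale.Agent.P224.SP.UPoly

/-!
Combinations `n0 + n1 f1 + n2 f2 + n3 F3` with integer polynomial coefficients (`m = 5`): algebra
and derivatives, all kernel-computable.
-/

namespace Vale.Agent.P224.SP

open Set Filter Real
open scoped Topology

/-- `F3 = b13 (L13 - L13 1 + sqrt 15 / 2)` -/
noncomputable def F3 (T : ℝ) : ℝ := b13 T * (L13 T - L13 1 + √15 / 2)

/-- four coefficient polynomials -/
structure Q4 where
  n0 : List ℤ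
  n1 : List ℤ
  n2 : List ℤ
  n3 : List ℤ
deriving DecidableEq

/-- `n0 + n1 f1 + n2 f2 + n3 F3` -/
noncomputable def G4 (N : Q4) (T : ℝ) : ℝ :=
  ev N.n0 T + ev N.n1 T * f1 T + ev N.n2 T * f2 T + ev N.n3 T * F3 T

/-- `T^2 (1 - T^2) (5 + T)` -/
noncomputable def Qd (T : ℝ) : ℝ := T ^ 2 * (1 - T ^ 2) * (5 + T)

/-- `T (1 - T^2) (25 - T^2)` -/
noncomputable def Del (T : ℝ) : ℝ := T * (1 - T ^ 2) * (25 - T ^ 2)

/-- list of `Qd` -/
def QdL : List ℤ := [0, 0, 5, 1, -5, -1]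
/-- list of `Del` -/
def DelL : List ℤ := [0, 25, 0, -26, 0, 1]
/-- `(1 - T^2) (25 - T^2)` -/
def d0L : List ℤ := [25, 0, -26, 0, 1]
/-- `T (1 + T) (5 - T) (2 + T)` -/
def d1L : List ℤ := [0, 10, 13, 2, -1]
/-- `T (2 T^3 - 26 T)` -/
def d2L : List ℤ := [0, 0, -26, 0, 2]
/-- `T (1 - T) (5 - T) (3 + T)` -/
def d3L : List ℤ := [0, 15, -13, -3, 1]
/-- `Del Qd' / Qd` -/
def kapL : List ℤ := [50, 5, -103, -5, 5]

lemma ev_QdL (T : ℝ) : ev QdL T = Qd T := by
  simp only [QdL, Qd, ev_cons, ev_nil]; push_cast; ring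
lemma ev_DelL (T : ℝ) : ev DelL T = Del T := by
  simp only [DelL, Del, ev_cons, ev_nil]; push_cast; ring
lemma ev_d0L (T : ℝ) : ev d0L T = (1 - T ^ 2) * (25 - T ^ 2) := by
  simp only [d0L, ev_cons, ev_nil]; push_cast; ring
lemma ev_d1L (T : ℝ) : ev d1L T = T * (1 + T) * (5 - T) * (2 + T) := by
  simp only [d1L, ev_cons, ev_nil]; push_cast; ring
lemma ev_d2L (T : ℝ) : ev d2L T = T * (2 * T ^ 3 - 26 * T) := by
  simp only [d2L, ev_cons, ev_nil]; push_cast; ring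
lemma ev_d3L (T : ℝ) : ev d3L T = T * (1 - T) * (5 - T) * (3 + T) := by
  simp only [d3L, ev_cons, ev_nil]; push_cast; ring
lemma ev_kapL (T : ℝ) : ev kapL T =
    2 * (1 - T ^ 2) * (25 - T ^ 2) - 2 * T ^ 2 * (25 - T ^ 2) + T * (1 - T ^ 2) * (5 - T) := by
  simp only [kapL, ev_cons, ev_nil]; push_cast; ring

/-! ### algebra -/

namespace Q4

/-- sum -/
def add (N M : Q4) : Q4 :=
  ⟨addL N.n0 M.n0, addL N.n1 M.n1, addL N.n2 M.n2, addL N.n3 M.n3⟩
/-- multiple -/
def smul (k : ℤ) (N : Q4) : Q4 := ⟨smulL k N.n0, smulL k N.n1, smulL k N.n2, smulL k N.n3⟩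
/-- polynomial multiple -/
def mulp (l : List ℤ) (N : Q4) : Q4 := ⟨mulL l N.n0, mulL l N.n1, mulL l N.n2, mulL l N.n3⟩
/-- zero -/
def zero : Q4 := ⟨[], [], [], []⟩
/-- `∑ c N` over a list of pairs -/
def lin : List (List ℤ × Q4) → Q4
  | [] => zero
  | (c, N) :: L => add (mulp c N) (lin L)

end Q4

lemma G4_add (N M : Q4) (T : ℝ) : G4 (N.add M) T = G4 N T + G4 M T := by
  simp only [G4, Q4.add, ev_addL]; ring
lemma G4_smul (k : ℤ) (N : Q4) (T : ℝ) : G4 (N.smul k) T = (k : ℝ) * G4 N T := by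
  simp only [G4, Q4.smul, ev_smulL]; ring
lemma G4_mulp (l : List ℤ) (N : Q4) (T : ℝ) : G4 (N.mulp l) T = ev l T * G4 N T := by
  simp only [G4, Q4.mulp, ev_mulL]; ring
lemma G4_zero (T : ℝ) : G4 Q4.zero T = 0 := by
  simp only [G4, Q4.zero, ev_nil]; ring

/-- evaluation of a linear combination -/
noncomputable def linR (T : ℝ) : List (List ℤ × Q4) → ℝ
  | [] => 0
  | (c, N) :: L => ev c T * G4 N T + linR T L

lemma G4_lin (L : List (List ℤ × Q4)) (T : ℝ) : G4 (Q4.lin L) T = linR T L := by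
  induction L with
  | nil => exact G4_zero T
  | cons x L ih =>
    obtain ⟨c, N⟩ := x
    simp only [Q4.lin, linR, G4_add, G4_mulp, ih]

/-! ### equality tests up to trailing zeros -/

/-- equality of coefficient lists up to trailing zeros -/
def eqL : List ℤ → List ℤ → Bool
  | [], m => m.all fun a => decide (a = 0)
  | l, [] => l.all fun a => decide (a = 0)
  | (a :: l), (b :: m) => decide (a = b) && eqL l m

lemma ev_of_all_zero {l : List ℤ} (h : (l.all fun a => decide (a = 0)) = true) (x : ℝ) :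
    ev l x = 0 := by
  induction l with
  | nil => rfl
  | cons a l ih =>
    simp only [List.all_cons, Bool.and_eq_true, decide_eq_true_eq] at h
    rw [ev_cons, h.1, ih h.2]; simp

lemma ev_of_eqL {l m : List ℤ} (h : eqL l m = true) (x : ℝ) : ev l x = ev m x := by
  induction l generalizing m with
  | nil =>
    have h' : (m.all fun a => decide (a = 0)) = true := by simpa only [eqL] using h
    rw [ev_nil, ev_of_all_zero h']
  | cons a l ih =>
    cases m with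
    | nil =>
      have h' : ((a :: l).all fun a => decide (a = 0)) = true := by simpa only [eqL] using h
      rw [ev_nil, ev_of_all_zero h']
    | cons b m =>
      simp only [eqL, Bool.and_eq_true, decide_eq_true_eq] at h
      rw [ev_cons, ev_cons, h.1, ih h.2]

namespace Q4

/-- equality up to trailing zeros -/
def eq (N M : Q4) : Bool := eqL N.n0 M.n0 && eqL N.n1 M.n1 && eqL N.n2 M.n2 && eqL N.n3 M.n3

end Q4

lemma G4_of_eq {N M : Q4} (h : N.eq M = true) (T : ℝ) : G4 N T = G4 M T := by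
  simp only [Q4.eq, Bool.and_eq_true] at h
  obtain ⟨⟨⟨h0, h1⟩, h2⟩, h3⟩ := h
  simp only [G4, ev_of_eqL h0, ev_of_eqL h1, ev_of_eqL h2, ev_of_eqL h3]

/-! ### derivatives -/

/-- the coefficients of `Del (G4 N)'` -/
def dQ0 (N : Q4) : Q4 :=
  ⟨addL (mulL DelL (derL N.n0))
      (smulL (-1) (mulL d0L (addL N.n1 (addL (smulL 2 N.n2) N.n3)))),
    addL (mulL DelL (derL N.n1)) (smulL (-1) (mulL d1L N.n1)),
    addL (mulL DelL (derL N.n2)) (mulL d2L N.n2),
    addL (mulL DelL (derL N.n3)) (mulL d3L N.n3)⟩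

/-- the coefficients of `Del Qd (G4 N / Qd)'` -/
def dQ (N : Q4) : Q4 := (dQ0 N).add ((N.mulp kapL).smul (-1))

section

variable {T : ℝ}

lemma Del_pos (h0 : 0 < T) (h1 : T < 1) : 0 < Del T := by
  unfold Del
  have h2 : T ^ 2 < 1 := by nlinarith
  exact mul_pos (mul_pos h0 (by linarith)) (by linarith)

lemma Qd_pos (h0 : 0 < T) (h1 : T < 1) : 0 < Qd T := by
  unfold Qd
  have h2 : T ^ 2 < 1 := by nlinarith
  exact mul_pos (mul_pos (by positivity) (by linarith)) (by linarith)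

lemma hasDerivAt_f1' (h0 : 0 < T) (h1 : T < 1) :
    HasDerivAt f1 ((-(ev d1L T) * f1 T - ev d0L T) / Del T) T := by
  refine (hasDerivAt_f1 h0 h1).congr_deriv ?_
  rw [ev_d1L, ev_d0L, Del]
  have e1 : (1 - T) ≠ 0 := by linarith
  have e2 : (1 + T) ≠ 0 := by linarith
  have e3 : (5 - T) ≠ 0 := by linarith
  have e4 : (5 + T) ≠ 0 := by linarith
  have e5 : T ≠ 0 := h0.ne'
  have e6 : (1 - T ^ 2) = (1 - T) * (1 + T) := by ring
  have e7 : (25 - T ^ 2) = (5 - T) * (5 + T) := by ring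
  have e8 : (1 + T / 5) = (5 + T) / 5 := by ring
  rw [e6, e7, e8]
  field_simp

lemma hasDerivAt_f2' (h0 : 0 < T) (h1 : T < 1) :
    HasDerivAt f2 ((ev d2L T * f2 T - 2 * ev d0L T) / Del T) T := by
  refine (hasDerivAt_f2 h0 h1).congr_deriv ?_
  rw [ev_d2L, ev_d0L, Del]
  have h2 : T ^ 2 < 1 := by nlinarith
  have e5 : T ≠ 0 := h0.ne'
  have e6 : (1 - T ^ 2) ≠ 0 := by linarith
  have e7 : (25 - T ^ 2) ≠ 0 := by linarith
  have e8 : (1 - T ^ 2 / 25) = (25 - T ^ 2) / 25 := by ring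
  rw [e8]
  field_simp
  ring

lemma hasDerivAt_F3 (h0 : 0 < T) (h1 : T < 1) :
    HasDerivAt F3 ((ev d3L T * F3 T - ev d0L T) / Del T) T := by
  have h : HasDerivAt (fun T => b13 T * (L13 T - L13 1 + √15 / 2)) _ T :=
    (hasDerivAt_b13 h0).fun_mul (((hasDerivAt_L13 h0).sub_const (L13 1)).add_const (√15 / 2))
  refine h.congr_deriv ?_
  have hs := b13_pos h0
  have hq := b13_sq h0
  have key : ∀ s q l : ℝ, 0 < s → s ^ 2 = q → (3 / 5 + T / 5) / s * l + s * (-1 / (T * s)) =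
      (3 / 5 + T / 5) / q * (s * l) - 1 / T := by
    intro s q l hs hq
    subst hq
    have hs' := hs.ne'
    have hT' := h0.ne'
    field_simp
    ring
  rw [key _ _ _ hs hq, ev_d3L, ev_d0L, Del]
  unfold F3
  have e1 : (1 - T) ≠ 0 := by linarith
  have e2 : (1 + T) ≠ 0 := by linarith
  have e3 : (5 - T) ≠ 0 := by linarith
  have e4 : (5 + T) ≠ 0 := by linarith
  have e5 : T ≠ 0 := h0.ne'
  have e6 : (1 - T ^ 2) = (1 - T) * (1 + T) := by ring
  have e7 : (25 - T ^ 2) = (5 - T) * (5 + T) := by ring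
  have e8 : (1 + T / 5) = (5 + T) / 5 := by ring
  rw [e6, e7, e8]
  field_simp

/-- `(G4 N)' = G4 (dQ0 N) / Del` -/
theorem hasDerivAt_G4 (N : Q4) (h0 : 0 < T) (h1 : T < 1) :
    HasDerivAt (G4 N) (G4 (dQ0 N) T / Del T) T := by
  have h : HasDerivAt (fun T => ev N.n0 T + ev N.n1 T * f1 T + ev N.n2 T * f2 T +
      ev N.n3 T * F3 T) _ T :=
    (((hasDerivAt_ev N.n0 T).fun_add ((hasDerivAt_ev N.n1 T).fun_mul (hasDerivAt_f1' h0 h1))).fun_add
      ((hasDerivAt_ev N.n2 T).fun_mul (hasDerivAt_f2' h0 h1))).fun_add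
      ((hasDerivAt_ev N.n3 T).fun_mul (hasDerivAt_F3 h0 h1))
  refine h.congr_deriv ?_
  have hD := (Del_pos h0 h1).ne'
  simp only [G4, dQ0, ev_addL, ev_smulL, ev_mulL, ev_DelL]
  push_cast
  field_simp
  ring

lemma hasDerivAt_Qd (h0 : 0 < T) (h1 : T < 1) :
    HasDerivAt Qd (ev kapL T * Qd T / Del T) T := by
  have h := hasDerivAt_ev QdL T
  have e : ev QdL = Qd := funext ev_QdL
  rw [e] at h
  refine h.congr_deriv ?_
  have hD := (Del_pos h0 h1).ne'
  rw [eq_div_iff hD, ev_kapL, Qd, Del]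
  have e2 : ev (derL QdL) T = 10 * T + 3 * T ^ 2 - 20 * T ^ 3 - 5 * T ^ 4 := by
    have e3 : derL QdL = [0, 10, 3, -20, -5] := by decide
    rw [e3]
    simp only [ev_cons, ev_nil]; push_cast; ring
  rw [e2]
  ring

/-- the derivative of `G4 N / Qd` -/
theorem hasDerivAt_G4_div (N : Q4) (h0 : 0 < T) (h1 : T < 1) :
    HasDerivAt (fun T => G4 N T / Qd T) (G4 (dQ N) T / (Del T * Qd T)) T := by
  have h := (hasDerivAt_G4 N h0 h1).fun_div (hasDerivAt_Qd h0 h1) (Qd_pos h0 h1).ne'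
  refine h.congr_deriv ?_
  have hD := (Del_pos h0 h1).ne'
  have hQ := (Qd_pos h0 h1).ne'
  rw [dQ, G4_add, G4_smul, G4_mulp]
  push_cast
  field_simp
  ring

/-- a linear relation between `(G4 N / Qd)'` and functions `G4 M` from one kernel identity -/
theorem ode_of_eq {N : Q4} {e : List ℤ} {L : List (List ℤ × Q4)}
    (h : ((dQ N).mulp e).eq (Q4.lin L) = true) (T : ℝ) : ev e T * G4 (dQ N) T = linR T L := by
  rw [← G4_mulp, G4_of_eq h, G4_lin]

end

end Vale.Agent.P224.SP
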