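import Vale.Agent.P224.SP.Right5
import Vale.Agent.P224.H874.Der

/-!
The function `F3` and the models of `SP/Right5`.
-/

namespace Vale.Agent.P224.SP

open Set Real

lemma L13_one : L13 1 = Real.log (4 + √15) := by
  unfold L13 qL qD qR
  have h1 : √(1 + 6 / 5 * 1 + 1 / 5 * 1 ^ 2) = 2 / 5 * √15 := by
    rw [show (1 + 6 / 5 * 1 + 1 / 5 * 1 ^ 2 : ℝ) = (2 / 5) ^ 2 * 15 by norm_num,
      Real.sqrt_mul (by positivity), Real.sqrt_sq (by norm_num)]
  rw [h1]
  congr 1
  ring

lemma F3_eq (T : ℝ) : F3 T = f3c T + 5 / 2 * f4 T := by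
  unfold F3 f3c f4
  have h1 : √15 = 5 * √(3 / 5) := by
    rw [show (15 : ℝ) = 5 ^ 2 * (3 / 5) by norm_num, Real.sqrt_mul (by positivity),
      Real.sqrt_sq (by norm_num)]
  rw [h1]
  ring

lemma F3_eq_f3 (T : ℝ) : F3 T = f3 T + (√15 / 2 - Real.log (4 + √15)) * b13 T := by
  unfold F3 f3
  rw [L13_one]
  ring

lemma F3_one : F3 1 = 3 := by
  unfold F3 b13
  rw [sub_self, zero_add, qR_3]
  have h1 : √((1 + 1) * (1 + 1 / 5)) = 2 / 5 * √15 := by
    rw [show ((1 + 1) * (1 + 1 / 5) : ℝ) = (2 / 5) ^ 2 * 15 by norm_num,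
      Real.sqrt_mul (by positivity), Real.sqrt_sq (by norm_num)]
  rw [h1]
  have h2 : √15 * √15 = 15 := Real.mul_self_sqrt (by norm_num)
  linear_combination (1 / 5 : ℝ) * h2

lemma f1_one : f1 1 = 0 := by unfold f1; rw [y1_one, zero_mul]

lemma f2_one : f2 1 = 0 := by unfold f2; rw [y12_one, zero_mul]

lemma continuousOn_f1 : ContinuousOn f1 (Ioc 0 1) := continuous_y1.continuousOn.mul continuousOn_l1

lemma continuousOn_f2 : ContinuousOn f2 (Ioc 0 1) := continuous_y12.continuousOn.mul continuousOn_L0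

lemma continuousOn_F3 : ContinuousOn F3 (Ioi 0) :=
  continuous_b13.continuousOn.mul ((continuousOn_L13.sub continuousOn_const).add continuousOn_const)

lemma continuousOn_G4 (N : Q4) : ContinuousOn (G4 N) (Ioc 0 1) := by
  have h3 : ContinuousOn F3 (Ioc 0 1) := continuousOn_F3.mono fun _ h => h.1
  exact (((continuous_ev N.n0).continuousOn.add
    ((continuous_ev N.n1).continuousOn.mul continuousOn_f1)).add
    ((continuous_ev N.n2).continuousOn.mul continuousOn_f2)).add
    ((continuous_ev N.n3).continuousOn.mul h3)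

lemma G4_one (N : Q4) : G4 N 1 = ev N.n0 1 + 3 * ev N.n3 1 := by
  unfold G4
  rw [f1_one, f2_one, F3_one]
  ring

end Vale.Agent.P224.SP
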