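import Vale.Agent.P224.H874.RegZ

/-!
Value columns with polynomial coefficients; scaling; tests of the coefficient expressions.
-/

namespace Vale.Agent.P224.SP

open Vale.Agent.P224.UE Vale.Agent.P224.POS Vale.Agent.P224.PO Vale.Agent.P224.SO Set Filter Real
open scoped RealInnerProductSpace Topology

noncomputable section

/-! ### Scaling -/

/-- a common multiple of the data of a column -/
def CD.smul (s : ℤ) (x : CD) : CD := ⟨x.N0.smul s, x.N1.smul s, x.NH.smul s, x.k, x.L⟩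

lemma Lim1.smul {N : Q4} {Ql : List ℤ} {L : ℝ} {s : ℤ} (hs : s ≠ 0) (h : Lim1 N Ql L) :
    Lim1 (N.smul s) (smulL s Ql) L := by
  have h2 : (s : ℝ) ≠ 0 := Int.cast_ne_zero.2 hs
  refine Filter.Tendsto.congr (fun T => ?_) h
  rw [G4_smul, ev_smulL, mul_div_mul_left _ _ h2]

lemma lim0_smul {N : Q4} {Ql : List ℤ} {s : ℤ} (hs : s ≠ 0) :
    lim0 (N.smul s) / ev (smulL s Ql) 0 = lim0 N / ev Ql 0 := by
  have h2 : (s : ℝ) ≠ 0 := Int.cast_ne_zero.2 hs
  have h3 : lim0 (N.smul s) = s * lim0 N := by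
    simp only [lim0, Q4.smul, ev_smulL]
    ring
  rw [h3, ev_smulL, mul_div_mul_left _ _ h2]

/-- the limit at `T = 1` from an approximation with a power of `1 - T` -/
theorem Lim1.of_bdh {N : Q4} {Ql B : List ℤ} {D E : ℝ} (hD : 0 < D) {h : ℕ} (hh : h ≠ 0)
    (hE : 0 ≤ E)
    (hb : ∀ T, 0 < T → T < 1 → |D * (G4 N T / ev Ql T) - ev B T| ≤ E * (1 - T) ^ h) :
    Lim1 N Ql (ev B 1 / D) := by
  refine Lim1.of_bd hD fun T h0 h1 => (hb T h0 h1).trans (mul_le_mul_of_nonneg_left ?_ hE)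
  exact pow_le_of_le_one (by linarith) (by linarith) hh

lemma ev_one_list (l : List ℤ) : ev l 1 = (l.sum : ℤ) := by
  induction l with
  | nil => simp
  | cons a l ih =>
    rw [ev_cons, ih, List.sum_cons]
    push_cast
    ring

/-! ### Polynomial columns -/

/-- the data of a column with the coefficient `(1 - T) ^ k h(T) / D0` -/
structure FD where
  K : VK
  k : ℕ
  h : List ℤ

/-- the column over the denominator `f D0 dn` -/
def FD.cd (f D0 : ℤ) (dn : List ℤ) (x : FD) : CD where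
  N0 := ⟨mulL (smulL f dn) (mulL (omL x.k) x.h), [], [], []⟩
  N1 := ⟨mulL (smulL f dn) (derL (mulL (omL x.k) x.h)), [], [], []⟩
  NH := ⟨mulL (smulL f dn) x.h, [], [], []⟩
  k := x.k
  L := ((x.h.sum : ℤ) : ℝ) / D0

lemma FD.lim1 {f D0 : ℤ} (hf : f ≠ 0) (h0 : D0 ≠ 0) {dn : List ℤ}
    (hdn : ∀ T ∈ Ioo (0 : ℝ) 1, ev dn T ≠ 0) (x : FD) :
    Lim1 (x.cd f D0 dn).NH (smulL (f * D0) dn) (x.cd f D0 dn).L := by
  have h2 : (f : ℝ) ≠ 0 := Int.cast_ne_zero.2 hf
  have h3 : (D0 : ℝ) ≠ 0 := Int.cast_ne_zero.2 h0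
  have h4 : Tendsto (ev x.h) (𝓝[<] 1) (𝓝 (ev x.h 1)) :=
    ((continuous_ev x.h).tendsto 1).mono_left nhdsWithin_le_nhds
  rw [ev_one_list] at h4
  refine (h4.div_const (D0 : ℝ)).congr' ?_
  filter_upwards [ev_Ioo] with T hT
  have h5 := hdn T hT
  simp only [FD.cd, G4, ev_mulL, ev_smulL, ev_nil]
  push_cast
  field_simp
  ring

lemma FD.zero {f D0 : ℤ} (hf : f ≠ 0) {dn : List ℤ}
    (hdn : ev dn 0 ≠ 0) (x : FD) :
    lim0 (x.cd f D0 dn).NH / ev (smulL (f * D0) dn) 0 = ((x.h.headD 0 : ℤ) : ℝ) / D0 := by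
  have h2 : (f : ℝ) ≠ 0 := Int.cast_ne_zero.2 hf
  simp only [FD.cd, lim0, ev_mulL, ev_smulL, ev_nil, ev_zero x.h]
  push_cast
  rcases eq_or_ne D0 0 with h0 | h0
  · subst h0
    simp
  · have h3 : (D0 : ℝ) ≠ 0 := Int.cast_ne_zero.2 h0
    field_simp
    ring

/-! ### Tests of the coefficient expressions -/

/-- the test of the coefficient expressions -/
def okPE (Ms : List ℕ) (r : List PE) (N : Q4) : Bool :=
  allN (fun q => POS.chk Ms (.sub (r.getD q (.c 0)) (N.pe.getD q (.c 0)))) 4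

lemma sum_of_okPE {Ms : List ℕ} {r : List PE} {N : Q4} (h : okPE Ms r N = true) (T : ℝ) :
    ∑ p ∈ Finset.range 4, b4 p T * PE.ev (fT T) (N.pe.getD p (.c 0))
      = ∑ p ∈ Finset.range 4, b4 p T * PE.ev (fT T) (r.getD p (.c 0)) := by
  have h2 := allN_spec h
  refine Finset.sum_congr rfl fun p hp => ?_
  rw [ev_eq_of_chk (h2 p (Finset.mem_range.1 hp)) _ fun i hi => fT_ge T hi]

section

variable {dn kap : List ℤ} {l : List (VZ × CD)}

theorem hg0_Z' (h : (l.all fun x => x.2.ok dn kap) = true)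
    (hdn : ∀ T ∈ Ioo (0 : ℝ) 1, ev dn T ≠ 0) {Ms : List ℕ}
    (hr : (l.all fun x => okPE Ms x.1.r0 x.2.N0) = true) :
    ∀ T ∈ Ioo (0 : ℝ) 1, ∀ x ∈ l.map (colZ dn), dZ (toPE dn) T * x.2.1 T
      = ∑ p ∈ Finset.range 4, b4 p T * PE.ev (fT T) (x.1.r0.getD p (.c 0)) := by
  intro T hT x hx
  obtain ⟨u, hu, rfl⟩ := List.mem_map.1 hx
  exact (CD.eq0 (List.all_eq_true.1 h u hu) hdn hT).trans
    (sum_of_okPE (List.all_eq_true.1 hr u hu) T)

theorem hg1_Z' (hdn : ∀ T ∈ Ioo (0 : ℝ) 1, ev dn T ≠ 0) {Ms : List ℕ}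
    (hr : (l.all fun x => okPE Ms x.1.r1 x.2.N1) = true) :
    ∀ T ∈ Ioo (0 : ℝ) 1, ∀ x ∈ l.map (colZ dn), dZ (toPE dn) T * x.2.2.1 T
      = ∑ p ∈ Finset.range 4, b4 p T * PE.ev (fT T) (x.1.r1.getD p (.c 0)) := by
  intro T hT x hx
  obtain ⟨u, hu, rfl⟩ := List.mem_map.1 hx
  exact (CD.eq1 hdn hT).trans (sum_of_okPE (List.all_eq_true.1 hr u hu) T)

theorem hz_Z' {lR : List (RZ × Q4)} (hdn : ∀ T ∈ Ioo (0 : ℝ) 1, ev dn T ≠ 0) {Ms : List ℕ}
    (hr : (lR.all fun x => okPE Ms x.1.r x.2) = true) :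
    ∀ T ∈ Ioo (0 : ℝ) 1, ∀ x ∈ lR.map (rowZ dn), dZ (toPE dn) T * x.2 T
      = ∑ p ∈ Finset.range 4, b4 p T * PE.ev (fT T) (x.1.r.getD p (.c 0)) := by
  intro T hT x hx
  obtain ⟨u, hu, rfl⟩ := List.mem_map.1 hx
  exact (eq_row _ hdn hT).trans (sum_of_okPE (List.all_eq_true.1 hr u hu) T)

end

/-! ### The flux of polynomial columns -/

/-- `48 kq` -/
def kz : ℕ → ℕ → ℤ
  | 0, q => if q = 3 then 96 else if q = 4 then 16 else if q = 5 then 6
      else if q = 6 then 3 else 0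
  | a + 1, q => kz a (q - 1) - kz a q

lemma kz_eq (a q : ℕ) : (kq a q : ℝ) = (kz a q : ℝ) / 48 := by
  induction a generalizing q with
  | zero =>
    simp only [kq, kz]
    split_ifs <;> norm_num
  | succ a ih =>
    rw [kq, kz]
    push_cast
    rw [ih, ih]
    ring

/-- the flux test of a polynomial column -/
def FD.fl (x : FD) : ℤ :=
  Bool.rec (motive := fun _ => ℤ) 0 (x.h.sum * kz x.K.a x.K.q)
    (decide (x.K.i = 0 ∧ x.K.j = 0 ∧ x.K.q = x.k + 2 + 1 + x.K.a))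

/-- the flux of a list of polynomial columns -/
theorem flux_F {f D0 : ℤ} {dn : List ℤ} (l : List (VZ × FD))
    (hK : ∀ x ∈ l, x.1.K = x.2.K) :
    ((l.map fun x => (x.1, x.2.cd f D0 dn)).map fun x => if isFlZ x then
      x.2.L * (kq x.1.K.a x.1.K.q : ℝ) else 0).sum
      = ((l.map fun x => x.2.fl).sum : ℤ) / (48 * D0) := by
  induction l with
  | nil => simp
  | cons x l ih =>
    rw [List.map_cons, List.map_cons, List.sum_cons, List.map_cons, List.sum_cons,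
      ih fun u hu => hK u (List.mem_cons_of_mem _ hu)]
    have h1 := hK x List.mem_cons_self
    push_cast
    rw [add_div]
    congr 1
    by_cases h : isFlZ (x.1, x.2.cd f D0 dn)
    · rw [if_pos h]
      have h2 : x.2.K.i = 0 ∧ x.2.K.j = 0 ∧ x.2.K.q = x.2.k + 2 + 1 + x.2.K.a := by
        rw [← h1]
        exact h
      have h3 : x.2.fl = x.2.h.sum * kz x.2.K.a x.2.K.q := by
        unfold FD.fl
        rw [decide_eq_true h2]
      rw [h3, kz_eq]
      simp only [FD.cd, h1]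
      push_cast
      rw [div_mul_div_comm, mul_comm (D0 : ℝ)]
    · rw [if_neg h]
      have h2 : ¬ (x.2.K.i = 0 ∧ x.2.K.j = 0 ∧ x.2.K.q = x.2.k + 2 + 1 + x.2.K.a) := by
        rw [← h1]
        exact h
      have h3 : x.2.fl = 0 := by
        unfold FD.fl
        rw [decide_eq_false h2]
      rw [h3]
      simp

end

end Vale.Agent.P224.SP
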