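import Vale.Agent.P224.SP.DatZ
import Vale.Agent.P224.SP.ZeroV
import Vale.Agent.P224.H874.PivD
import Vale.Agent.P224.H874.RegP

/-!
The value terms of the certificate data: regularity, exponents, flux, values at `T = 0`, the
pointwise inequality.
-/

namespace Vale.Agent.P224.SP

open Vale.Agent.P224.UE Vale.Agent.P224.POS Vale.Agent.P224.PO Vale.Agent.P224.SO Set Filter Real
open scoped RealInnerProductSpace Topology

noncomputable section

/-! ### Powers of `1 - T` -/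

/-- the power of `1 - T` that the exponents require -/
def kK (K : VK) : ℕ := bif Nat.beq K.i 0 && Nat.beq K.j 0 then K.q - 3 - K.a
  else K.q - 2 - (K.a + K.i + K.j)

lemma ok_kK (K : VK) : (K.i = 0 ∧ K.j = 0 ∧ K.q = kK K + 2 + 1 + K.a)
    ∨ K.q ≤ kK K + 2 + (K.a + K.i + K.j) := by
  by_cases h : K.i = 0 ∧ K.j = 0
  · have e : kK K = K.q - 3 - K.a := by
      unfold kK
      rw [h.1, h.2]
      rfl
    rw [e]
    omega
  · have e : kK K = K.q - 2 - (K.a + K.i + K.j) := by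
      unfold kK
      have h1 : (Nat.beq K.i 0 && Nat.beq K.j 0) = false := by
        rw [← Bool.not_eq_true, Bool.and_eq_true]
        exact fun h2 => h ⟨Nat.eq_of_beq_eq_true h2.1, Nat.eq_of_beq_eq_true h2.2⟩
      rw [h1]
      rfl
    rw [e]
    omega

/-- the sums of the first coefficients -/
def psum : ℤ → List ℤ → List ℤ
  | _, [] => []
  | s, a :: l => (s + a) :: psum (s + a) l

/-- the quotient by `(1 - T) ^ k` -/
def divK (k : ℕ) (l : List ℤ) : List ℤ :=
  Nat.rec (motive := fun _ => List ℤ) l (fun _ ih => psum 0 ih) k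

/-- the quotient of a free value column -/
def VFz.h (x : VFz) : List ℤ := divK (kK x.K) x.p

/-- the test of a free value column -/
def VFz.ok (x : VFz) : Bool := eqL (mulL (omL (kK x.K)) x.h) x.p

/-- the test of a base value column -/
def VBz.ok (dl kap : List ℤ) (x : VBz) : Bool :=
  (Nat.beq (kK x.K) 0 && okLog x.N0) && Q4.eq (dQk kap x.N0) (x.N1.mulp DelL)

/-- the limit at `T = 1` of a base value column -/
def VBz.L1 (DD : ℕ) (x : VBz) : ℝ := ((x.B0.sum : ℤ) : ℝ) / DD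

/-- the coefficient function with its limits -/
def VBz.ge (dl : List ℤ) (DD : ℕ) (x : VBz) : ℝ → ℝ := ext x.N0 dl (x.L1 DD)

/-- the power of `1 - T` and the limit -/
def κB (DD : ℕ) (x : VBz) : ℕ × ℝ := (0, √6 * x.L1 DD / √6 ^ (x.K.i + x.K.j))

/-- the power of `1 - T` and the limit -/
def κF (c0 : ℕ) (x : VFz) : ℕ × ℝ :=
  (kK x.K, √6 * (((x.h.sum : ℤ) : ℝ) / c0) / √6 ^ (x.K.i + x.K.j))

/-- the value columns with their functions, extended by their limits -/
def lVE (dl : List ℤ) (c0 DD kB kF : ℕ) (lb : List VBz) (lf : List VFz) :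
    List (VZ × (ℝ → ℝ) × (ℝ → ℝ) × ℕ × ℝ) :=
  (lb.map fun x => (x.z c0 kB, x.ge dl DD, x.g' dl, κB DD x))
    ++ lf.map fun x => (x.z dl kF, x.g c0, x.g' c0, κF c0 x)

/-- the value columns as value terms -/
theorem lVE_VE (dl : List ℤ) (c0 DD kB kF : ℕ) (lb : List VBz) (lf : List VFz) :
    (lVE dl c0 DD kB kF lb lf).map toVE
      = (lb.map fun x => (⟨x.K, x.ge dl DD, x.g' dl, (κB DD x).1, (κB DD x).2, [], []⟩ : VE))
        ++ lf.map fun x => (⟨x.K, x.g c0, x.g' c0, (κF c0 x).1, (κF c0 x).2, [], []⟩ : VE) := by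
  unfold lVE
  rw [List.map_append, List.map_map, List.map_map]
  rfl

/-! ### Regularity -/

section

variable {dl kap : List ℤ} {x : VBz} {DD : ℕ}

theorem VBz.reg (hk : eqL (mulL DelL (derL dl)) (mulL kap dl) = true)
    (hdl : ∀ T ∈ Ico (0 : ℝ) 1, ev dl T ≠ 0) (h : x.ok dl kap = true)
    (h1 : Lim1 x.N0 dl (x.L1 DD)) :
    ∀ t ∈ x.K.gts (x.ge dl DD) (x.g' dl) (κB DD x).1 (κB DD x).2, t.Reg := by
  have hdl' : ∀ T ∈ Ioo (0 : ℝ) 1, ev dl T ≠ 0 := fun T hT => hdl T ⟨hT.1.le, hT.2⟩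
  unfold VBz.ok at h
  rw [Bool.and_eq_true, Bool.and_eq_true] at h
  obtain ⟨⟨-, hlog⟩, hder⟩ := h
  have hce := continuousOn_ext (L1 := x.L1 DD) hk hdl hlog h1
  have key := x.K.reg (g := x.ge dl DD) (g' := x.g' dl) (gh := ext x.N0 dl (x.L1 DD)) 0
    (measurable_ext _ _ _) ((measurable_G4 _).div (measurable_ev _)) hce
    (ContinuousOn.div (fun T hT => (hasDerivAt_G4 x.N1 hT.1 hT.2).continuousAt.continuousWithinAt)
      (continuous_ev dl).continuousOn hdl') (fun T hT => ?_)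
    (fun T _ => by rw [pow_zero, one_mul]; rfl) hce
  · rw [ext_one] at key
    exact key
  · have hd := hasDerivAt_G4_divL hk x.N0 hT.1 hT.2 (hdl' T hT)
    have hd2 : HasDerivAt (x.ge dl DD) (G4 (dQk kap x.N0) T / (Del T * ev dl T)) T := by
      refine hd.congr_of_eventuallyEq ?_
      filter_upwards [Ioo_mem_nhds hT.1 hT.2] with u hu
      exact ext_mid hu.1 hu.2
    refine hd2.congr_deriv ?_
    have h2 := G4_of_eq hder T
    rw [G4_mulp, ev_DelL] at h2
    unfold VBz.g'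
    rw [h2]
    have hD := (Del_pos hT.1 hT.2).ne'
    have := hdl' T hT
    field_simp

theorem VFz.reg (c0 : ℕ) {x : VFz} (h : x.ok = true) :
    ∀ t ∈ x.K.gts (x.g c0) (x.g' c0) (κF c0 x).1 (κF c0 x).2, t.Reg := by
  have hc : Continuous fun T => ev x.h T / (c0 : ℝ) := (continuous_ev _).div_const _
  have key := x.K.reg (g := x.g c0) (g' := x.g' c0) (gh := fun T => ev x.h T / (c0 : ℝ)) (kK x.K)
    ((measurable_ev _).div_const _) ((measurable_ev _).div_const _)
    ((continuous_ev _).div_const _).continuousOn ((continuous_ev _).div_const _).continuousOn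
    (fun T _ => (hasDerivAt_ev x.p T).div_const _) (fun T _ => ?_) hc.continuousOn
  · have e : ev x.h 1 / (c0 : ℝ) = ((x.h.sum : ℤ) : ℝ) / c0 := by rw [ev_one_list]
    simp only [e] at key
    exact key
  · have h2 := ev_of_eqL h T
    rw [ev_mulL, ev_omL] at h2
    unfold VFz.g
    rw [← h2]
    ring

/-- **The regularity of all value terms.** -/
theorem reg_E (hk : eqL (mulL DelL (derL dl)) (mulL kap dl) = true)
    (hdl : ∀ T ∈ Ico (0 : ℝ) 1, ev dl T ≠ 0) {c0 kB kF : ℕ} {lb : List VBz} {lf : List VFz}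
    (hb : (lb.all (VBz.ok dl kap)) = true) (hf : (lf.all VFz.ok) = true)
    (hL : ∀ x ∈ lb, Lim1 x.N0 dl (x.L1 DD)) :
    ∀ t ∈ lGZ (lVE dl c0 DD kB kF lb lf), t.Reg := by
  intro t ht
  unfold lGZ at ht
  obtain ⟨y, hy, hty⟩ := List.mem_flatMap.1 ht
  unfold lVE at hy
  rcases List.mem_append.1 hy with hy | hy
  · obtain ⟨u, hu, rfl⟩ := List.mem_map.1 hy
    exact VBz.reg hk hdl (List.all_eq_true.1 hb u hu) (hL u hu) t hty
  · obtain ⟨u, hu, rfl⟩ := List.mem_map.1 hy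
    exact VFz.reg c0 (List.all_eq_true.1 hf u hu) t hty

end

/-! ### Exponents -/

lemma ok_gts {K : VK} {g g' : ℝ → ℝ} {lim : ℝ} : ∀ t ∈ K.gts g g' (kK K) lim, t.ok 2 := by
  intro t ht
  have h2 := ok_kK K
  unfold VK.gts at ht
  rcases List.mem_cons.1 ht with rfl | ht
  · rcases h2 with h2 | h2
    · exact Or.inl ⟨h2.1, h2.2.1, h2.2.2⟩
    · exact Or.inr h2
  · rcases List.mem_cons.1 ht with rfl | ht
    · rcases h2 with h2 | h2
      · exact Or.inl ⟨h2.2.1, h2.1, h2.2.2⟩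
      · refine Or.inr (h2.trans (le_of_eq ?_))
        change kK K + 2 + (K.a + K.i + K.j) = kK K + 2 + (K.a + K.j + K.i)
        omega
    · exact absurd ht List.not_mem_nil

lemma kK_of_ok {dl kap : List ℤ} {x : VBz} (h : x.ok dl kap = true) : kK x.K = 0 := by
  unfold VBz.ok at h
  rw [Bool.and_eq_true, Bool.and_eq_true] at h
  exact Nat.eq_of_beq_eq_true h.1.1

/-- **The exponents of all value terms.** -/
theorem ok_E {dl kap : List ℤ} {c0 DD kB kF : ℕ} {lb : List VBz} {lf : List VFz}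
    (hb : (lb.all (VBz.ok dl kap)) = true) :
    ∀ t ∈ lGZ (lVE dl c0 DD kB kF lb lf), t.ok 2 := by
  intro t ht
  unfold lGZ at ht
  obtain ⟨y, hy, hty⟩ := List.mem_flatMap.1 ht
  unfold lVE at hy
  rcases List.mem_append.1 hy with hy | hy
  · obtain ⟨u, hu, rfl⟩ := List.mem_map.1 hy
    have h0 : t ∈ u.K.gts (u.ge dl DD) (u.g' dl) 0 (κB DD u).2 := hty
    rw [← kK_of_ok (List.all_eq_true.1 hb u hu)] at h0
    exact ok_gts t h0
  · obtain ⟨u, hu, rfl⟩ := List.mem_map.1 hy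
    exact ok_gts t hty

/-! ### The inequality -/

/-- columns with the same functions at `T` -/
lemma gS'_congr {α : Type*} {f₁ f₂ : α → VZ × (ℝ → ℝ) × (ℝ → ℝ) × ℕ × ℝ} {l : List α} {T : ℝ}
    (d : R9) (h : ∀ x ∈ l, (f₁ x).1.K = (f₂ x).1.K ∧ (f₁ x).2.1 T = (f₂ x).2.1 T
      ∧ (f₁ x).2.2.1 T = (f₂ x).2.2.1 T) :
    gS' ((lGZ (l.map f₁)).map GT.v) T d = gS' ((lGZ (l.map f₂)).map GT.v) T d := by
  induction l with
  | nil => rfl
  | cons x l ih =>
    have e : ∀ f : α → VZ × (ℝ → ℝ) × (ℝ → ℝ) × ℕ × ℝ,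
        lGZ ((x :: l).map f) = gZ (f x) ++ lGZ (l.map f) := fun f => rfl
    rw [e, e, List.map_append, List.map_append, gS'_append, gS'_append,
      ih fun u hu => h u (List.mem_cons_of_mem _ hu)]
    congr 1
    obtain ⟨h1, h2, h3⟩ := h x List.mem_cons_self
    simp only [gZ, gS', VK.gts, List.map_cons, List.map_nil, List.sum_cons, List.sum_nil,
      VTm.g', GT.v, GT.Q, VK.phi, VK.phi', h1, h2, h3]

lemma lGZ_append (l l' : List (VZ × (ℝ → ℝ) × (ℝ → ℝ) × ℕ × ℝ)) :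
    lGZ (l ++ l') = lGZ l ++ lGZ l' := by
  unfold lGZ
  rw [List.flatMap_append]

/-- the extended columns have the same values in `(0, 1)` -/
theorem gS'_lVE {dl : List ℤ} {c0 DD kB kF : ℕ} {lb : List VBz} {lf : List VFz} {T : ℝ}
    (hT : T ∈ Ioo (0 : ℝ) 1) (d : R9) :
    gS' ((lGZ (lVE dl c0 DD kB kF lb lf)).map GT.v) T d
      = gS' ((lGZ (lVD dl c0 kB kF lb lf (κB DD) (κF c0))).map GT.v) T d := by
  unfold lVE lVD
  rw [lGZ_append, lGZ_append, List.map_append, List.map_append, gS'_append, gS'_append]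
  congr 1
  exact gS'_congr d fun x _ => ⟨rfl, ext_mid hT.1 hT.2, rfl⟩

/-! ### The flux -/

/-- the flux test of a column with the sum `s` -/
def flK (K : VK) (s : ℤ) : ℤ :=
  bif (Nat.beq K.i 0 && Nat.beq K.j 0) && Nat.beq K.q (kK K + 3 + K.a) then s * kz K.a K.q else 0

lemma flK_eq {x : VE} {s : ℤ} {D : ℝ} (hq : x.K.q ≤ 6) (hk : x.k = kK x.K)
    (hlim : x.lim = √6 * (s / D) / √6 ^ (x.K.i + x.K.j)) :
    (if isFl x then x.lim * kap2 5 x.K.a x.K.q else 0) = 2 * √3 * ((flK x.K s : ℤ) / (48 * D)) := by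
  have h3 : √(6 : ℝ) * √2 = 2 * √3 := by
    rw [← Real.sqrt_mul (by norm_num), show (6 * 2 : ℝ) = 2 ^ 2 * 3 by norm_num,
      Real.sqrt_mul (by positivity), Real.sqrt_sq (by norm_num)]
  by_cases h : isFl x
  · have hb : ((Nat.beq x.K.i 0 && Nat.beq x.K.j 0) && Nat.beq x.K.q (kK x.K + 3 + x.K.a))
        = true := by
      obtain ⟨h1, h2, h4⟩ := h
      rw [hk] at h4
      rw [Bool.and_eq_true, Bool.and_eq_true]
      refine ⟨⟨?_, ?_⟩, ?_⟩
      · rw [Nat.beq_eq]
        exact h1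
      · rw [Nat.beq_eq]
        exact h2
      · rw [Nat.beq_eq]
        omega
    have e : flK x.K s = s * kz x.K.a x.K.q := by
      unfold flK
      rw [hb]
      rfl
    rw [if_pos h, e, hlim]
    obtain ⟨h1, h2, h4⟩ := h
    rw [kap2_five (by omega) hq, h1, h2, kz_eq, pow_zero, div_one]
    push_cast
    linear_combination (s / D * (kz x.K.a x.K.q / 48)) * h3
  · have hb : ((Nat.beq x.K.i 0 && Nat.beq x.K.j 0) && Nat.beq x.K.q (kK x.K + 3 + x.K.a))
        = false := by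
      rw [← Bool.not_eq_true, Bool.and_eq_true, Bool.and_eq_true]
      rintro ⟨⟨h1, h2⟩, h4⟩
      refine h ⟨Nat.eq_of_beq_eq_true h1, Nat.eq_of_beq_eq_true h2, ?_⟩
      have := Nat.eq_of_beq_eq_true h4
      rw [hk]
      omega
    have e : flK x.K s = 0 := by
      unfold flK
      rw [hb]
      rfl
    rw [if_neg h, e]
    simp

/-- the flux of a list of columns -/
lemma flux_list {α : Type*} {f : α → VE} {K : α → VK} {s : α → ℤ} {D : ℝ} {l : List α}
    (h : ∀ x ∈ l, (f x).K = K x ∧ (f x).K.q ≤ 6 ∧ (f x).k = kK (f x).K ∧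
      (f x).lim = √6 * (s x / D) / √6 ^ ((f x).K.i + (f x).K.j)) :
    ((l.map f).map fun x => if isFl x then x.lim * kap2 5 x.K.a x.K.q else 0).sum
      = 2 * √3 * (((l.map fun x => flK (K x) (s x)).sum : ℤ) / (48 * D)) := by
  induction l with
  | nil => simp
  | cons x l ih =>
    obtain ⟨h1, h2, h3, h4⟩ := h x List.mem_cons_self
    rw [List.map_cons, List.map_cons, List.sum_cons, List.map_cons, List.sum_cons,
      ih fun u hu => h u (List.mem_cons_of_mem _ hu), flK_eq h2 h3 h4, h1]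
    push_cast
    ring

/-- the flux of the base columns -/
def flB (lb : List VBz) : ℤ := (lb.map fun x => flK x.K x.B0.sum).sum

/-- the flux of the free columns -/
def flF (lf : List VFz) : ℤ := (lf.map fun x => flK x.K x.h.sum).sum

/-- **The flux.** -/
theorem flux_E {dl kap : List ℤ} {c0 DD kB kF : ℕ} {lb : List VBz} {lf : List VFz}
    (hb : (lb.all (VBz.ok dl kap)) = true) (hqb : ∀ x ∈ lb, x.K.q ≤ 6)
    (hqf : ∀ x ∈ lf, x.K.q ≤ 6) (h1 : 25 * flB lb = 24 * (48 * DD)) (hDD : 0 < DD)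
    (h2 : flF lf = 0) : OT.fluxC 5 2 (lGZ (lVE dl c0 DD kB kF lb lf)) = 48 / 25 * √3 := by
  rw [lGZ_eq, flux_lG, lVE_VE, List.map_append, List.sum_append,
    flux_list (K := fun x : VBz => x.K) (s := fun x : VBz => x.B0.sum) (D := (DD : ℝ))
      (fun x hx => ⟨rfl, hqb x hx, (kK_of_ok (List.all_eq_true.1 hb x hx)).symm, rfl⟩),
    flux_list (K := fun x : VFz => x.K) (s := fun x : VFz => x.h.sum) (D := (c0 : ℝ))
      (fun x hx => ⟨rfl, hqf x hx, rfl, rfl⟩)]
  have e1 : (25 : ℝ) * ((lb.map fun x => flK x.K x.B0.sum).sum : ℤ) = 24 * (48 * DD) := by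
    exact_mod_cast h1
  have e2 : (((lf.map fun x => flK x.K x.h.sum).sum : ℤ) : ℝ) = 0 := by
    exact_mod_cast h2
  rw [e2]
  have e3 : (((lb.map fun x => flK x.K x.B0.sum).sum : ℤ) : ℝ) / (48 * DD) = 24 / 25 := by
    have : (DD : ℝ) ≠ 0 := by exact_mod_cast hDD.ne'
    field_simp
    linarith
  rw [e3, zero_div, mul_zero, add_zero]
  ring

/-! ### The values at `T = 0` -/

/-- the exponents and the constant coefficients -/
def key0 (x : VBz) : VK × ℤ × ℤ × ℤ :=
  (x.K, x.N0.n0.headD 0, x.N0.n1.headD 0 + x.N0.n3.headD 0, x.N0.n3.headD 0)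

/-- the values at `T = 0` of the base columns -/
theorem zero_B {dl : List ℤ} {DD : ℕ} {lb : List VBz} {kap : List ℤ}
    (hb : (lb.all (VBz.ok dl kap)) = true) (hdl : dl = PivD.dn)
    (hk : lb.map key0 = [(⟨3, 0, 0, 0, 0⟩, -6687500, 16500000, 0),
      (⟨4, 2, 0, 0, 0⟩, -562500, 1125000, 0), (⟨3, 0, 0, 0, 1⟩, 5500000, -6000000, -6000000),
      (⟨2, 0, 1, 0, 1⟩, -562500, 1125000, 0), (⟨3, 0, 1, 0, 1⟩, -375000, 750000, 0),
      (⟨2, 0, 2, 0, 0⟩, 130500000, -261000000, 0), (⟨3, 0, 2, 0, 0⟩, 147375000, -294750000, 0),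
      (⟨4, 0, 2, 0, 0⟩, 104062500, -208125000, 0), (⟨3, 0, 2, 0, 1⟩, 0, 0, 0),
      (⟨4, 0, 2, 0, 1⟩, 0, 0, 0)]) :
    (lb.map fun x => (x.K, x.ge dl DD 0)) = pivV PivD.ll PivD.KK := by
  have e1 : (lb.map fun x => (x.K, x.ge dl DD 0)) = (lb.map key0).map fun y =>
      (y.1, ((y.2.1 : ℝ) + (y.2.2.1 : ℝ) / 2 * PivD.ll - (y.2.2.2 : ℝ) * PivD.KK) / 1562500) := by
    rw [List.map_map]
    refine List.map_congr_left fun x hx => ?_
    have h1 := List.all_eq_true.1 hb x hx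
    unfold VBz.ok at h1
    rw [Bool.and_eq_true, Bool.and_eq_true] at h1
    have h2 := PivD.lim0_dn h1.1.2
    unfold VBz.ge
    rw [ext_zero, hdl, h2]
    simp only [Function.comp_apply, key0]
    push_cast
    rfl
  rw [e1, hk]
  simp only [List.map_cons, List.map_nil, pivV, List.cons.injEq, Prod.mk.injEq, true_and,
    and_true]
  refine ⟨?_, ?_, ?_, ?_, ?_, ?_, ?_, ?_, ?_, ?_⟩ <;> (push_cast; ring)

/-- the values at `T = 0` of the free columns -/
theorem zero_F {c0 : ℕ} (lf : List VFz) :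
    (lf.map fun x => (x.K, x.g c0 0))
      = (lf.map fun x => (x.K, x.p.headD 0)).map fun y => (y.1, ((y.2 : ℤ) : ℝ) / c0) := by
  rw [List.map_map]
  refine List.map_congr_left fun x _ => ?_
  simp only [VFz.g, ev_zero, Function.comp_apply]

end

end Vale.Agent.P224.SP
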