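import Vale.Agent.P224.SP.Mk

/-!
Regularity of the value columns whose coefficient functions are combinations of base functions
that satisfy a linear system of differential equations.
-/

namespace Vale.Agent.P224.SP

open Vale.Agent.P224.UE Vale.Agent.P224.POS Vale.Agent.P224.PO Vale.Agent.P224.SO Set Filter
open scoped RealInnerProductSpace Topology

noncomputable section

/-! ### Derivatives of polynomial expressions in `T` -/

/-- the derivative in the variable 4 -/
def dT (e : PE) : PE :=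
  PE.rec (motive := fun _ => PE) (fun _ => .c 0)
    (fun i => Bool.rec (motive := fun _ => PE) (.c 0) (.c 1) (Nat.beq i 4))
    (fun _ _ x y => .add x y) (fun _ _ x y => .sub x y)
    (fun a b x y => .add (.mul x b) (.mul a y))
    (fun a n x => .mul (.mul (.c (Int.ofNat n)) (.pow a (Nat.sub n 1))) x) e

lemma hasDerivAt_pev (e : PE) (T : ℝ) :
    HasDerivAt (fun T => PE.ev (fT T) e) (PE.ev (fT T) (dT e)) T := by
  induction e with
  | c n =>
    have h1 : PE.ev (fT T) (dT (.c n)) = 0 := by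
      change PE.ev (fT T) (.c 0) = 0
      simp
    rw [h1]
    exact hasDerivAt_const T (n : ℝ)
  | v i =>
    by_cases h : i = 4
    · subst h
      have h1 : PE.ev (fT T) (dT (.v 4)) = 1 := by
        change PE.ev (fT T) (.c 1) = 1
        simp
      rw [h1]
      have h2 : (fun T => PE.ev (fT T) (.v 4)) = id := by
        funext x
        simp [fT]
      rw [h2]
      exact hasDerivAt_id T
    · have h0 : Nat.beq i 4 = false := by
        rw [← Bool.not_eq_true]
        exact fun h3 => h (Nat.eq_of_beq_eq_true h3)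
      have h1 : PE.ev (fT T) (dT (.v i)) = 0 := by
        have e1 : dT (.v i) = Bool.rec (motive := fun _ => PE) (.c 0) (.c 1) (Nat.beq i 4) := rfl
        rw [e1, h0]
        simp
      rw [h1]
      have h2 : (fun T => PE.ev (fT T) (.v i)) = fun _ => 0 := by
        funext x
        simp [fT, h]
      rw [h2]
      exact hasDerivAt_const T (0 : ℝ)
  | add a b ha hb => exact ha.fun_add hb
  | sub a b ha hb => exact ha.fun_sub hb
  | mul a b ha hb => exact ha.fun_mul hb
  | pow a n ha =>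
    refine (ha.fun_pow n).congr_deriv ?_
    change _ = PE.ev (fT T) (.mul (.mul (.c (Int.ofNat n)) (.pow a (Nat.sub n 1))) (dT a))
    rw [PE.ev_mul, PE.ev_mul, PE.ev_pow, PE.ev_c]
    rfl

lemma continuous_pev (e : PE) : Continuous fun T => PE.ev (fT T) e :=
  continuous_iff_continuousAt.2 fun T => (hasDerivAt_pev e T).continuousAt

/-! ### Base functions -/

/-- the base functions satisfy a linear system -/
structure Base (n : ℕ) (b : ℕ → ℝ → ℝ) (dn : PE) (Cm : List (List PE)) : Prop where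
  meas : ∀ p < n, Measurable (b p)
  cont : ∀ p < n, ContinuousOn (b p) (Icc 0 1)
  ne : ∀ T ∈ Ioo (0 : ℝ) 1, PE.ev (fT T) dn ≠ 0
  der : ∀ p < n, ∀ T ∈ Ioo (0 : ℝ) 1, HasDerivAt (b p)
    ((∑ q ∈ Finset.range n, b q T * PE.ev (fT T) ((Cm.getD p []).getD q (.c 0)))
      / PE.ev (fT T) dn) T

/-- a finite sum of expressions -/
def sumR (g : ℕ → PE) (n : ℕ) : PE :=
  Nat.rec (motive := fun _ => PE) (.c 0) (fun k ih => .add ih (g k)) n

lemma ev_sumR (f : ℕ → ℝ) (g : ℕ → PE) (n : ℕ) :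
    PE.ev f (sumR g n) = ∑ p ∈ Finset.range n, PE.ev f (g p) := by
  induction n with
  | zero =>
    change PE.ev f (.c 0) = _
    simp
  | succ n ih =>
    change PE.ev f (.add (sumR g n) (g n)) = _
    rw [PE.ev_add, ih, Finset.sum_range_succ]

/-- the coefficients of `dn` times the derivative of a combination -/
def derR (n : ℕ) (dn : PE) (Cm : List (List PE)) (s : List PE) (q : ℕ) : PE :=
  .add (.mul dn (dT (s.getD q (.c 0))))
    (sumR (fun p => .mul (s.getD p (.c 0)) ((Cm.getD p []).getD q (.c 0))) n)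

section

variable {n : ℕ} {b : ℕ → ℝ → ℝ} {dn : PE} {Cm : List (List PE)}

lemma Base.continuousOn_cmb1 (hB : Base n b dn Cm) (s : List PE) :
    ContinuousOn (cmb1 n b s) (Icc 0 1) := by
  unfold cmb1
  exact continuousOn_finsetSum _ fun p hp =>
    (hB.cont p (Finset.mem_range.1 hp)).mul (continuous_pev _).continuousOn

lemma Base.measurable_cmb1 (hB : Base n b dn Cm) (s : List PE) : Measurable (cmb1 n b s) := by
  unfold cmb1
  exact Finset.measurable_sum _ fun p hp =>
    (hB.meas p (Finset.mem_range.1 hp)).mul (continuous_pev _).measurable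

lemma Base.continuousOn_cmb (hB : Base n b dn Cm) (r : List PE) :
    ContinuousOn (cmb n b (fun T => PE.ev (fT T) dn) r) (Ioo 0 1) := by
  unfold cmb
  refine ContinuousOn.div (continuousOn_finsetSum _ fun p hp =>
    ((hB.cont p (Finset.mem_range.1 hp)).mono Ioo_subset_Icc_self).mul
      (continuous_pev _).continuousOn) (continuous_pev _).continuousOn hB.ne

lemma Base.measurable_cmb (hB : Base n b dn Cm) (r : List PE) :
    Measurable (cmb n b (fun T => PE.ev (fT T) dn) r) := by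
  unfold cmb
  exact (Finset.measurable_sum _ fun p hp =>
    (hB.meas p (Finset.mem_range.1 hp)).mul (continuous_pev _).measurable).div
    (continuous_pev _).measurable

/-- the derivative of a combination of the base functions -/
theorem Base.hasDerivAt_cmb1 (hB : Base n b dn Cm) {s r : List PE} {T : ℝ}
    (hT : T ∈ Ioo (0 : ℝ) 1)
    (h : ∀ q < n, PE.ev (fT T) (r.getD q (.c 0)) = PE.ev (fT T) (derR n dn Cm s q)) :
    HasDerivAt (cmb1 n b s) (cmb n b (fun T => PE.ev (fT T) dn) r T) T := by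
  have h1 : HasDerivAt (cmb1 n b s) (∑ p ∈ Finset.range n,
      ((∑ q ∈ Finset.range n, b q T * PE.ev (fT T) ((Cm.getD p []).getD q (.c 0)))
        / PE.ev (fT T) dn * PE.ev (fT T) (s.getD p (.c 0))
        + b p T * PE.ev (fT T) (dT (s.getD p (.c 0))))) T := by
    unfold cmb1
    exact HasDerivAt.fun_sum fun p hp =>
      (hB.der p (Finset.mem_range.1 hp) T hT).fun_mul (hasDerivAt_pev _ T)
  refine h1.congr_deriv ?_
  have hd := hB.ne T hT
  unfold cmb
  rw [eq_div_iff hd]
  have h2 : ∀ q ∈ Finset.range n, b q T * PE.ev (fT T) (r.getD q (.c 0))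
      = b q T * (PE.ev (fT T) dn * PE.ev (fT T) (dT (s.getD q (.c 0))))
        + ∑ p ∈ Finset.range n, b q T * (PE.ev (fT T) (s.getD p (.c 0))
          * PE.ev (fT T) ((Cm.getD p []).getD q (.c 0))) := by
    intro q hq
    rw [h q (Finset.mem_range.1 hq), derR, PE.ev_add, PE.ev_mul, ev_sumR, mul_add,
      Finset.mul_sum]
    simp only [PE.ev_mul]
  rw [Finset.sum_congr rfl h2]
  have e1 : ∑ q ∈ Finset.range n, ∑ p ∈ Finset.range n, b q T * (PE.ev (fT T) (s.getD p (.c 0))
        * PE.ev (fT T) ((Cm.getD p []).getD q (.c 0)))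
      = ∑ p ∈ Finset.range n, (∑ q ∈ Finset.range n, b q T
        * PE.ev (fT T) ((Cm.getD p []).getD q (.c 0))) * PE.ev (fT T) (s.getD p (.c 0)) := by
    rw [Finset.sum_comm]
    refine Finset.sum_congr rfl fun p _ => ?_
    rw [Finset.sum_mul]
    refine Finset.sum_congr rfl fun q _ => ?_
    ring
  refine Eq.trans ?_ (Finset.sum_add_distrib (s := Finset.range n)
    (f := fun q => b q T * (PE.ev (fT T) dn * PE.ev (fT T) (dT (s.getD q (.c 0)))))
    (g := fun q => ∑ p ∈ Finset.range n, b q T * (PE.ev (fT T) (s.getD p (.c 0))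
        * PE.ev (fT T) ((Cm.getD p []).getD q (.c 0))))).symm
  rw [e1, ← Finset.sum_add_distrib, Finset.sum_mul]
  refine Finset.sum_congr rfl fun p _ => ?_
  field_simp
  ring

end

/-! ### The coefficient of a value column -/

lemma hasDerivAt_AT (T : ℝ) : HasDerivAt AT (-4 - 2 * T) T := by
  have h1 : HasDerivAt (fun T : ℝ => (1 - T) * (5 + T)) (-1 * (5 + T) + (1 - T) * 1) T :=
    ((hasDerivAt_id T).const_sub 1).fun_mul ((hasDerivAt_id T).const_add 5)
  exact h1.congr_deriv (by ring)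

lemma continuous_AT : Continuous AT := by
  unfold AT
  fun_prop

lemma hasDerivAt_sqrt_AT {T : ℝ} (hT : T ∈ Ioo (0 : ℝ) 1) :
    HasDerivAt (fun T => √(AT T)) ((-4 - 2 * T) / (2 * √(AT T))) T :=
  (hasDerivAt_AT T).sqrt (AT_pos hT.1 hT.2).ne'

lemma VK.hasDerivAt_phi (c : VK) {g g' : ℝ → ℝ} {T : ℝ} (hT : T ∈ Ioo (0 : ℝ) 1)
    (hg : HasDerivAt g (g' T) T) : HasDerivAt (c.phi g) (c.phi' g g' T) T := by
  have h1 : HasDerivAt (fun T => √(AT T) * g T / √6 ^ (c.i + c.j)) _ T :=
    ((hasDerivAt_sqrt_AT hT).fun_mul hg).div_const _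
  refine h1.congr_deriv ?_
  have hA : √(AT T) ≠ 0 := (Real.sqrt_pos.2 (AT_pos hT.1 hT.2)).ne'
  have hA2 : √(AT T) ^ 2 = AT T := Real.sq_sqrt (AT_pos hT.1 hT.2).le
  unfold VK.phi'
  congr 1
  field_simp
  rw [hA2]
  ring

lemma VK.measurable_phi (c : VK) {g : ℝ → ℝ} (hg : Measurable g) : Measurable (c.phi g) := by
  unfold VK.phi
  exact ((continuous_AT.sqrt.measurable).mul hg).div_const _

lemma VK.measurable_phi' (c : VK) {g g' : ℝ → ℝ} (hg : Measurable g) (hg' : Measurable g') :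
    Measurable (c.phi' g g') := by
  unfold VK.phi'
  have h1 : Measurable fun T : ℝ => 2 * AT T := (continuous_AT.const_mul 2).measurable
  have h2 : Measurable fun T : ℝ => -4 - 2 * T := by fun_prop
  have h3 : Measurable fun T : ℝ => 2 * √(AT T) := (continuous_AT.sqrt.const_mul 2).measurable
  exact (((h1.mul hg').add (h2.mul hg)).div h3).div_const _

lemma VK.continuousOn_phi (c : VK) {g : ℝ → ℝ} {S : Set ℝ} (hg : ContinuousOn g S) :
    ContinuousOn (c.phi g) S := by
  unfold VK.phi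
  exact (continuous_AT.sqrt.continuousOn.mul hg).div_const _

lemma VK.continuousOn_phi' (c : VK) {g g' : ℝ → ℝ} (hg : ContinuousOn g (Ioo 0 1))
    (hg' : ContinuousOn g' (Ioo 0 1)) : ContinuousOn (c.phi' g g') (Ioo 0 1) := by
  unfold VK.phi'
  have h1 : Continuous fun T : ℝ => 2 * AT T := continuous_AT.const_mul 2
  have h2 : Continuous fun T : ℝ => -4 - 2 * T := by fun_prop
  have h3 : Continuous fun T : ℝ => 2 * √(AT T) := continuous_AT.sqrt.const_mul 2
  refine ContinuousOn.div_const (ContinuousOn.div ((h1.continuousOn.mul hg').add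
    (h2.continuousOn.mul hg)) h3.continuousOn fun T hT => ?_) _
  exact mul_ne_zero two_ne_zero (Real.sqrt_pos.2 (AT_pos hT.1 hT.2)).ne'

lemma VK.tendsto_phi (c : VK) {g gh : ℝ → ℝ} (k : ℕ)
    (hg : ∀ T ∈ Ioo (0 : ℝ) 1, g T = (1 - T) ^ k * gh T) (hc : ContinuousOn gh (Icc 0 1)) :
    Tendsto (fun T => c.phi g T / (1 - T) ^ ((k : ℝ) + 1 / 2)) (𝓝[<] 1)
      (𝓝 (√6 * gh 1 / √6 ^ (c.i + c.j))) := by
  have h1 : Tendsto gh (𝓝[<] 1) (𝓝 (gh 1)) := by
    have h2 := hc 1 (right_mem_Icc.2 zero_le_one)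
    refine h2.tendsto.mono_left ?_
    have h3 : 𝓝[<] (1 : ℝ) = 𝓝[Ioo 0 1] 1 := (nhdsWithin_Ioo_eq_nhdsLT one_pos).symm
    rw [h3]
    exact nhdsWithin_mono _ Ioo_subset_Icc_self
  have h4 : Tendsto (fun T : ℝ => √(5 + T)) (𝓝[<] 1) (𝓝 √6) := by
    have h5 : Continuous fun T : ℝ => √(5 + T) := by fun_prop
    have h6 := h5.tendsto 1
    rw [show (5 : ℝ) + 1 = 6 by norm_num] at h6
    exact h6.mono_left nhdsWithin_le_nhds
  refine ((h4.mul h1).div_const (√6 ^ (c.i + c.j))).congr' ?_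
  have h0 : ∀ᶠ T in 𝓝[<] (1 : ℝ), T ∈ Ioo (0 : ℝ) 1 := Ioo_mem_nhdsLT one_pos
  filter_upwards [h0] with T hT
  have hT1 : 0 < 1 - T := by linarith [hT.2]
  have e1 : (1 - T) ^ ((k : ℝ) + 1 / 2) = (1 - T) ^ k * √(1 - T) := by
    rw [Real.rpow_add hT1, Real.rpow_natCast, Real.sqrt_eq_rpow]
  have e2 : √(AT T) = √(1 - T) * √(5 + T) := Real.sqrt_mul hT1.le _
  unfold VK.phi
  rw [e1, e2, hg T hT]
  have h7 : √(1 - T) ≠ 0 := (Real.sqrt_pos.2 hT1).ne'
  have h8 : (1 - T) ^ k ≠ 0 := pow_ne_zero _ hT1.ne'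
  field_simp

/-- the regularity of the value terms of a column -/
theorem VK.reg (c : VK) {g g' gh : ℝ → ℝ} (k : ℕ) (hg0 : Measurable g) (hg0' : Measurable g')
    (hgc : ContinuousOn g (Icc 0 1)) (hgc' : ContinuousOn g' (Ioo 0 1))
    (hgd : ∀ T ∈ Ioo (0 : ℝ) 1, HasDerivAt g (g' T) T)
    (hg : ∀ T ∈ Ioo (0 : ℝ) 1, g T = (1 - T) ^ k * gh T) (hc : ContinuousOn gh (Icc 0 1)) :
    ∀ t ∈ c.gts g g' k (√6 * gh 1 / √6 ^ (c.i + c.j)), t.Reg := by
  have hw : Continuous fun d : R9 => d 3 ^ c.e := by fun_prop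
  have h1 : Tendsto (fun T => c.phi g T / 2 / (1 - T) ^ ((k : ℝ) + 1 / 2)) (𝓝[<] 1)
      (𝓝 (√6 * gh 1 / √6 ^ (c.i + c.j) / 2)) := by
    refine ((c.tendsto_phi k hg hc).div_const 2).congr fun T => ?_
    rw [div_right_comm]
  intro t ht
  unfold VK.gts at ht
  rcases List.mem_cons.1 ht with rfl | ht
  · exact ⟨hw, (c.measurable_phi hg0).div_const 2, (c.measurable_phi' hg0 hg0').div_const 2,
      (c.continuousOn_phi (hgc.mono Ico_subset_Icc_self)).div_const 2,
      (c.continuousOn_phi' (hgc.mono Ioo_subset_Icc_self) hgc').div_const 2,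
      fun T hT => (c.hasDerivAt_phi hT (hgd T hT)).div_const 2, h1⟩
  · rcases List.mem_cons.1 ht with rfl | ht
    · exact ⟨hw, (c.measurable_phi hg0).div_const 2, (c.measurable_phi' hg0 hg0').div_const 2,
        (c.continuousOn_phi (hgc.mono Ico_subset_Icc_self)).div_const 2,
        (c.continuousOn_phi' (hgc.mono Ioo_subset_Icc_self) hgc').div_const 2,
        fun T hT => (c.hasDerivAt_phi hT (hgd T hT)).div_const 2, h1⟩
    · exact absurd ht List.not_mem_nil

/-! ### Lists of columns -/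

/-- the data of a value column: exponents, coefficients `s` of `g`, coefficients `r1` of
`dn g'`, coefficients `sh` of `g / (1 - T) ^ k`, the power `k` -/
structure VDe where
  K : VK
  s : List PE
  r1 : List PE
  sh : List PE
  k : ℕ

/-- the limit -/
def VDe.lim (n : ℕ) (b : ℕ → ℝ → ℝ) (x : VDe) : ℝ := √6 * cmb1 n b x.sh 1 / √6 ^ (x.K.i + x.K.j)

/-- the column -/
def VDe.col (n : ℕ) (b : ℕ → ℝ → ℝ) (x : VDe) : VK × List PE × List PE × ℕ × ℝ :=
  (x.K, x.s, x.r1, x.k, x.lim n b)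

/-- all numbers smaller than `n` -/
def allN (P : ℕ → Bool) (n : ℕ) : Bool :=
  Nat.rec (motive := fun _ => Bool) true
    (fun k ih => Bool.rec (motive := fun _ => Bool) false ih (P k)) n

lemma allN_spec {P : ℕ → Bool} {n : ℕ} (h : allN P n = true) : ∀ q < n, P q = true := by
  induction n with
  | zero => intro q hq; exact absurd hq (by omega)
  | succ n ih =>
    have e1 : allN P (n + 1) = Bool.rec (motive := fun _ => Bool) false (allN P n) (P n) := rfl
    rw [e1] at h
    cases h1 : P n with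
    | false =>
      rw [h1] at h
      exact absurd h (by simp)
    | true =>
      rw [h1] at h
      intro q hq
      rcases Nat.lt_succ_iff_lt_or_eq.1 hq with h2 | h2
      · exact ih h q h2
      · rw [h2]; exact h1

/-- the check of the derivative of a column -/
def VDe.okD (Ms : List ℕ) (n : ℕ) (dn : PE) (Cm : List (List PE)) (x : VDe) : Bool :=
  allN (fun q => POS.chk Ms (.sub (x.r1.getD q (.c 0)) (derR n dn Cm x.s q))) n

/-- the check of the order of vanishing of a column -/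
def VDe.okK (Ms : List ℕ) (n : ℕ) (x : VDe) : Bool :=
  allN (fun p => POS.chk Ms (.sub (x.s.getD p (.c 0))
    (.mul (.pow (.sub (.c 1) (.v 4)) x.k) (x.sh.getD p (.c 0))))) n

/-- the check of the exponents of a column -/
def VDe.okE (x : VDe) : Bool :=
  decide ((x.K.i = 0 ∧ x.K.j = 0 ∧ x.K.q = x.k + 2 + 1 + x.K.a)
    ∨ x.K.q ≤ x.k + 2 + (x.K.a + x.K.i + x.K.j))

/-- the check of a column -/
def VDe.ok (Ms : List ℕ) (n : ℕ) (dn : PE) (Cm : List (List PE)) (x : VDe) : Bool :=
  (x.okD Ms n dn Cm && x.okK Ms n) && x.okE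

lemma fT_ge (T : ℝ) {m i : ℕ} (h : m + 10 ≤ i) : fT T i = 0 := by
  unfold fT
  rw [if_neg (by omega)]

section

variable {n : ℕ} {b : ℕ → ℝ → ℝ} {dn : PE} {Cm : List (List PE)}

/-- **The regularity of the value terms** from the kernel checks. -/
theorem reg_of_ok (hB : Base n b dn Cm) {Ms : List ℕ} {l : List VDe}
    (h : (l.all (VDe.ok Ms n dn Cm)) = true) :
    ∀ t ∈ lG ((l.map (VDe.col n b)).map (mkV n b dn)), t.Reg := by
  intro t ht
  unfold lG at ht
  obtain ⟨y, hy, hty⟩ := List.mem_flatMap.1 ht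
  rw [List.map_map] at hy
  obtain ⟨x, hx, rfl⟩ := List.mem_map.1 hy
  have h1 := List.all_eq_true.1 h x hx
  unfold VDe.ok at h1
  rw [Bool.and_eq_true, Bool.and_eq_true] at h1
  obtain ⟨⟨hD, hK⟩, -⟩ := h1
  have hD' := allN_spec hD
  have hK' := allN_spec hK
  refine VK.reg x.K (g := cmb1 n b x.s) (g' := cmb n b (fun T => PE.ev (fT T) dn) x.r1)
    (gh := cmb1 n b x.sh) x.k (hB.measurable_cmb1 _) (hB.measurable_cmb _)
    (hB.continuousOn_cmb1 _) (hB.continuousOn_cmb _) (fun T hT => ?_) (fun T _ => ?_)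
    (hB.continuousOn_cmb1 _) t hty
  · exact hB.hasDerivAt_cmb1 hT fun q hq => ev_eq_of_chk (hD' q hq) _ fun i hi => fT_ge T hi
  · unfold cmb1
    rw [Finset.mul_sum]
    refine Finset.sum_congr rfl fun p hp => ?_
    have h2 := ev_eq_of_chk (hK' p (Finset.mem_range.1 hp)) (fT T) fun i hi => fT_ge T hi
    rw [h2, PE.ev_mul, PE.ev_pow, PE.ev_sub, PE.ev_c, PE.ev_v]
    have h3 : fT T 4 = T := by simp [fT]
    rw [h3, Int.cast_one]
    ring

/-- the exponents -/
theorem ok_of_ok {Ms : List ℕ} {l : List VDe} (h : (l.all (VDe.ok Ms n dn Cm)) = true) :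
    ∀ t ∈ lG ((l.map (VDe.col n b)).map (mkV n b dn)), t.ok 2 := by
  intro t ht
  unfold lG at ht
  obtain ⟨y, hy, hty⟩ := List.mem_flatMap.1 ht
  rw [List.map_map] at hy
  obtain ⟨x, hx, rfl⟩ := List.mem_map.1 hy
  have h1 := List.all_eq_true.1 h x hx
  unfold VDe.ok at h1
  rw [Bool.and_eq_true] at h1
  have h2 := of_decide_eq_true (show decide _ = true from h1.2)
  unfold VK.gts at hty
  rcases List.mem_cons.1 hty with rfl | hty
  · rcases h2 with h2 | h2
    · exact Or.inl ⟨h2.1, h2.2.1, h2.2.2⟩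
    · exact Or.inr h2
  · rcases List.mem_cons.1 hty with rfl | hty
    · rcases h2 with h2 | h2
      · exact Or.inl ⟨h2.2.1, h2.1, h2.2.2⟩
      · refine Or.inr (h2.trans (le_of_eq ?_))
        change x.k + 2 + (x.K.a + x.K.i + x.K.j) = x.k + 2 + (x.K.a + x.K.j + x.K.i)
        omega
    · exact absurd hty List.not_mem_nil

/-- the weight on the diagonal -/
theorem w_diag {E : Type*} [NormedAddCommGroup E] [InnerProductSpace ℝ E] {V : List VE} :
    ∀ t ∈ lG V, ∀ x N : E, ‖x‖ = 1 → ‖N‖ = 1 → ⟪x, N⟫ = 0 → t.w (dv x N x N 0) = 1 := by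
  intro t ht x N hx hN hxN
  unfold lG at ht
  obtain ⟨y, hy, hty⟩ := List.mem_flatMap.1 ht
  have h3 : (dv x N x N (0 : E)) 3 = 1 := by
    change ⟪N, N⟫ = 1
    rw [real_inner_self_eq_norm_sq, hN]
    norm_num
  unfold VK.gts at hty
  rcases List.mem_cons.1 hty with rfl | hty
  · change (dv x N x N (0 : E)) 3 ^ _ = 1
    rw [h3, one_pow]
  · rcases List.mem_cons.1 hty with rfl | hty
    · change (dv x N x N (0 : E)) 3 ^ _ = 1
      rw [h3, one_pow]
    · exact absurd hty List.not_mem_nil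

/-- the columns of the polynomial identities -/
lemma map_col (l : List VDe) : ((l.map (VDe.col n b)).map fun x => (x.1, x.2.1, x.2.2.1))
    = l.map fun x => (x.K, x.s, x.r1) := by
  rw [List.map_map]
  rfl

end

/-! ### The value at `T = 0` -/

/-- the value terms at `T = 0` -/
theorem val_zero (V : List VE) (d : R9) :
    ((lG V).map fun t => t.φ 0 * t.Q d).sum
      = √5 / 2 * (V.map fun x => x.g 0 * PE.ev (vT 0 (d 0) (d 1) (d 2) (d 3)) x.K.Q).sum := by
  have h6 : √(6 : ℝ) ≠ 0 := by positivity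
  have hA : AT 0 = 5 := by unfold AT; norm_num
  induction V with
  | nil => simp [lG]
  | cons x V ih =>
    unfold lG at ih ⊢
    rw [List.flatMap_cons, List.map_append, List.sum_append, ih, List.map_cons, List.sum_cons,
      mul_add]
    congr 1
    set f := vT 0 (d 0) (d 1) (d 2) (d 3) with hf
    have et : PE.ev f ptt = d 1 / √6 := by
      rw [eq_div_iff h6, mul_comm]
      exact ev_ptt _ _ _ _ _
    have ep : PE.ev f ppp = d 2 / √6 := by
      rw [eq_div_iff h6, mul_comm]
      exact ev_ppp _ _ _ _ _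
    have ec : PE.ev f pc = d 3 := ev_pc _ _ _ _ _
    have e0 : f 0 = d 0 := rfl
    have hQ : PE.ev f x.K.Q = (1 - d 0) ^ x.K.a * d 3 ^ x.K.e
        * ((d 1 ^ x.K.i * d 2 ^ x.K.j + d 1 ^ x.K.j * d 2 ^ x.K.i) / √6 ^ (x.K.i + x.K.j)) := by
      simp only [VK.Q, PE.ev_mul, PE.ev_add, PE.ev_pow, PE.ev_sub, PE.ev_c, PE.ev_v, et, ep, ec,
        e0, Int.cast_one, div_pow]
      rw [pow_add]
      field_simp
    rw [hQ]
    simp only [VK.gts, List.map_cons, List.map_nil, List.sum_cons, List.sum_nil, GT.Q, VK.phi,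
      hA, add_zero]
    have h6p : √(6 : ℝ) ^ (x.K.i + x.K.j) ≠ 0 := pow_ne_zero _ h6
    field_simp

end

end Vale.Agent.P224.SP
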