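import Vale.Agent.P224.H874.RegE
import Vale.Agent.P224.OT.Cst5
import Vale.Agent.P224.OT.Sharp

/-!
The flux of a list of columns, and scaling of value terms.
-/

namespace Vale.Agent.P224.SP

open Vale.Agent.P224.UE Vale.Agent.P224.POS Vale.Agent.P224.PO Vale.Agent.P224.SO Set Filter
open scoped RealInnerProductSpace Topology

noncomputable section

/-- `kap2 5 a q / √2` -/
def kq : ℕ → ℕ → ℚ
  | 0, q => if q = 3 then 2 else if q = 4 then 1 / 3 else if q = 5 then 1 / 8
      else if q = 6 then 1 / 16 else 0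
  | a + 1, q => kq a (q - 1) - kq a q

lemma kap2_five {a q : ℕ} (h1 : 3 + a ≤ q) (h2 : q ≤ 6) : kap2 5 a q = √2 * (kq a q : ℝ) := by
  induction a generalizing q with
  | zero =>
    rw [OT.kap2_zero]
    have h3 : q = 3 ∨ q = 4 ∨ q = 5 ∨ q = 6 := by omega
    rcases h3 with rfl | rfl | rfl | rfl
    · rw [OT.kap_five_three]; norm_num [kq]; ring
    · rw [OT.kap_five_four]; norm_num [kq]; ring
    · rw [OT.kap_five_five]; norm_num [kq]; ring
    · rw [OT.kap_five_six]; norm_num [kq]; ring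
  | succ a ih =>
    rw [OT.kap2_succ, ih (by omega) (by omega), ih (by omega) (by omega), kq]
    push_cast
    ring

/-- a flux column -/
def isFl (x : VE) : Prop := x.K.i = 0 ∧ x.K.j = 0 ∧ x.K.q = x.k + 2 + 1 + x.K.a

instance (x : VE) : Decidable (isFl x) := by unfold isFl; infer_instance

/-- the flux of a list of columns -/
theorem flux_lG (V : List VE) : OT.fluxC 5 2 (lG V)
    = (V.map fun x => if isFl x then x.lim * kap2 5 x.K.a x.K.q else 0).sum := by
  induction V with
  | nil => simp [lG, OT.fluxC]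
  | cons x V ih =>
    unfold lG OT.fluxC at ih ⊢
    rw [List.flatMap_cons, List.map_append, List.sum_append, ih, List.map_cons, List.sum_cons]
    congr 1
    simp only [VK.gts, List.map_cons, List.map_nil, List.sum_cons, List.sum_nil, add_zero]
    by_cases h : isFl x
    · have h1 : GT.fl 2 ⟨fun T => x.K.phi x.g T / 2, fun T => x.K.phi' x.g x.g' T / 2, x.k,
          x.lim / 2, x.K.q, x.K.a, x.K.i, x.K.j, fun d => d 3 ^ x.K.e⟩ := h
      have h2 : GT.fl 2 ⟨fun T => x.K.phi x.g T / 2, fun T => x.K.phi' x.g x.g' T / 2, x.k,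
          x.lim / 2, x.K.q, x.K.a, x.K.j, x.K.i, fun d => d 3 ^ x.K.e⟩ := ⟨h.2.1, h.1, h.2.2⟩
      rw [if_pos h, if_pos h1, if_pos h2]
      ring
    · have h1 : ¬ GT.fl 2 ⟨fun T => x.K.phi x.g T / 2, fun T => x.K.phi' x.g x.g' T / 2, x.k,
          x.lim / 2, x.K.q, x.K.a, x.K.i, x.K.j, fun d => d 3 ^ x.K.e⟩ := h
      have h2 : ¬ GT.fl 2 ⟨fun T => x.K.phi x.g T / 2, fun T => x.K.phi' x.g x.g' T / 2, x.k,
          x.lim / 2, x.K.q, x.K.a, x.K.j, x.K.i, fun d => d 3 ^ x.K.e⟩ :=
        fun h3 => h ⟨h3.2.1, h3.1, h3.2.2⟩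
      rw [if_neg h, if_neg h1, if_neg h2, add_zero]

/-- a flux column -/
def VDe.isFl (x : VDe) : Prop := x.K.i = 0 ∧ x.K.j = 0 ∧ x.K.q = x.k + 2 + 1 + x.K.a

instance (x : VDe) : Decidable x.isFl := by unfold VDe.isFl; infer_instance

/-- the flux of a list of columns from the base functions -/
theorem flux_col (n : ℕ) (b : ℕ → ℝ → ℝ) (dn : PE) (l : List VDe) (hq : ∀ x ∈ l, x.K.q ≤ 6) :
    OT.fluxC 5 2 (lG ((l.map (VDe.col n b)).map (mkV n b dn)))
      = 2 * √3 * (l.map fun x => if x.isFl then cmb1 n b x.sh 1 * (kq x.K.a x.K.q : ℝ)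
        else 0).sum := by
  rw [flux_lG]
  have h3 : √(6 : ℝ) * √2 = 2 * √3 := by
    rw [← Real.sqrt_mul (by norm_num), show (6 * 2 : ℝ) = 2 ^ 2 * 3 by norm_num,
      Real.sqrt_mul (by positivity), Real.sqrt_sq (by norm_num)]
  induction l with
  | nil => simp
  | cons x l ih =>
    rw [List.map_cons, List.map_cons, List.map_cons, List.sum_cons, List.map_cons, List.sum_cons,
      mul_add, ih fun u hu => hq u (List.mem_cons_of_mem _ hu)]
    congr 1
    by_cases h : x.isFl
    · have h1 : isFl (mkV n b dn (VDe.col n b x)) := h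
      rw [if_pos h, if_pos h1]
      obtain ⟨hi, hj, hk⟩ := h
      have h4 := kap2_five (a := x.K.a) (q := x.K.q) (by omega) (hq x List.mem_cons_self)
      change x.lim n b * kap2 5 x.K.a x.K.q = _
      rw [h4, VDe.lim, hi, hj, pow_zero, div_one]
      linear_combination (cmb1 n b x.sh 1 * (kq x.K.a x.K.q : ℝ)) * h3
    · have h1 : ¬ isFl (mkV n b dn (VDe.col n b x)) := h
      rw [if_neg h, if_neg h1, mul_zero]

/-! ### Scaling -/

/-- a multiple of a value term -/
def gsm (r : ℝ) (t : GT) : GT :=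
  ⟨fun T => r * t.φ T, fun T => r * t.φ' T, t.k, r * t.c, t.q, t.a, t.i, t.j, t.w⟩

lemma reg_gsm {r : ℝ} {t : GT} (h : t.Reg) : (gsm r t).Reg where
  hw := h.hw
  hm := h.hm.const_mul r
  hm' := h.hm'.const_mul r
  hc := continuousOn_const.mul h.hc
  hc' := continuousOn_const.mul h.hc'
  hd T hT := (h.hd T hT).const_mul r
  hl := by
    refine (h.hl.const_mul r).congr fun T => ?_
    change r * (t.φ T / (1 - T) ^ ((t.k : ℝ) + 1 / 2)) = r * t.φ T / (1 - T) ^ ((t.k : ℝ) + 1 / 2)
    rw [mul_div_assoc]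

lemma ok_gsm {r : ℝ} {t : GT} {h : ℕ} (ht : t.ok h) : (gsm r t).ok h := ht

lemma fl_gsm {r : ℝ} {t : GT} {h : ℕ} : (gsm r t).fl h ↔ t.fl h := Iff.rfl

lemma gS'_gsm (r : ℝ) (l : List GT) (T : ℝ) (d : R9) :
    gS' ((l.map (gsm r)).map GT.v) T d = r * gS' (l.map GT.v) T d := by
  induction l with
  | nil => simp [gS']
  | cons t l ih =>
    unfold gS' at ih ⊢
    rw [List.map_cons, List.map_cons, List.map_cons, List.sum_cons, List.map_cons, List.map_cons,
      List.sum_cons, ih, mul_add]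
    congr 1
    simp only [VTm.g', GT.v, gsm, GT.Q]
    ring

lemma val_gsm (r : ℝ) (l : List GT) (d : R9) :
    ((l.map (gsm r)).map fun t => t.φ 0 * t.Q d).sum
      = r * (l.map fun t => t.φ 0 * t.Q d).sum := by
  induction l with
  | nil => simp
  | cons t l ih =>
    rw [List.map_cons, List.map_cons, List.sum_cons, ih, List.map_cons, List.sum_cons, mul_add]
    congr 1
    simp only [gsm, GT.Q]
    ring

lemma flux_gsm (r : ℝ) (m h : ℕ) (l : List GT) :
    OT.fluxC m h (l.map (gsm r)) = r * OT.fluxC m h l := by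
  unfold OT.fluxC
  induction l with
  | nil => simp
  | cons t l ih =>
    rw [List.map_cons, List.map_cons, List.sum_cons, ih, List.map_cons, List.sum_cons, mul_add]
    congr 1
    by_cases hf : t.fl h
    · rw [if_pos hf, if_pos (fl_gsm.2 hf)]
      simp only [gsm]
      ring
    · rw [if_neg hf, if_neg fun h1 => hf (fl_gsm.1 h1), mul_zero]

lemma all_gsm {r : ℝ} {l : List GT} {P : GT → Prop} (h : ∀ t ∈ l, P (gsm r t)) :
    ∀ t ∈ l.map (gsm r), P t := by
  intro t ht
  obtain ⟨u, hu, rfl⟩ := List.mem_map.1 ht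
  exact h u hu

end

end Vale.Agent.P224.SP
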