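import Vale.Agent.P224.SP.DatZ
import Vale.Agent.P224.H874.RegE
import Vale.Agent.P224.H874.Lim0
import Vale.Agent.P224.OT.Sharp

/-!
The value columns `g = (n0 + n1 f1 + n2 f2 + n3 F3) / dn`: the equations of `hpos_Z`, the
regularity, the exponents, the flux, the value at `T = 0`.
-/

namespace Vale.Agent.P224.SP

open Vale.Agent.P224.UE Vale.Agent.P224.POS Vale.Agent.P224.PO Vale.Agent.P224.SO Set Filter Real
open scoped RealInnerProductSpace Topology

noncomputable section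

/-- a coefficient list as an expression in the variable 4 -/
def toPE (l : List ℤ) : PE :=
  List.rec (motive := fun _ => PE) (.c 0) (fun a _ ih => .add (.c a) (.mul (.v 4) ih)) l

lemma ev_toPE (l : List ℤ) (T : ℝ) : PE.ev (fT T) (toPE l) = ev l T := by
  induction l with
  | nil =>
    change PE.ev (fT T) (.c 0) = _
    simp
  | cons a l ih =>
    have h : fT T 4 = T := by simp [fT]
    change PE.ev (fT T) (.add (.c a) (.mul (.v 4) (toPE l))) = _
    rw [PE.ev_add, PE.ev_mul, PE.ev_c, PE.ev_v, ih, h, ev_cons]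

lemma only4_toPE (l : List ℤ) : only4 (toPE l) = true := by
  induction l with
  | nil => rfl
  | cons a l ih =>
    change Bool.rec (motive := fun _ => Bool) false
      (Bool.rec (motive := fun _ => Bool) false (only4 (toPE l)) (Nat.beq 4 4)) true = true
    rw [ih]
    rfl

/-- the coefficients of a combination as expressions -/
def Q4.pe (N : Q4) : List PE := [toPE N.n0, toPE N.n1, toPE N.n2, toPE N.n3]

/-- the base functions `1, f1, f2, F3` -/
def b4 (p : ℕ) (T : ℝ) : ℝ :=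
  if p = 0 then 1 else if p = 1 then f1 T else if p = 2 then f2 T else if p = 3 then F3 T else 0

lemma sum_b4 (N : Q4) (T : ℝ) :
    ∑ p ∈ Finset.range 4, b4 p T * PE.ev (fT T) (N.pe.getD p (.c 0)) = G4 N T := by
  simp only [Finset.sum_range_succ, Finset.sum_range_zero, Q4.pe, List.getD_cons_zero,
    List.getD_cons_succ, ev_toPE, b4, G4]
  norm_num
  ring

/-! ### Quotients extended by their limits -/

/-- the quotient extended by its limits -/
def ext (N : Q4) (Ql : List ℤ) (L1 T : ℝ) : ℝ :=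
  if T ≤ 0 then lim0 N / ev Ql 0 else if 1 ≤ T then L1 else G4 N T / ev Ql T

lemma ext_mid {N : Q4} {Ql : List ℤ} {L1 T : ℝ} (h0 : 0 < T) (h1 : T < 1) :
    ext N Ql L1 T = G4 N T / ev Ql T := by
  unfold ext
  rw [if_neg (by linarith), if_neg (by linarith)]

lemma ext_zero {N : Q4} {Ql : List ℤ} {L1 : ℝ} : ext N Ql L1 0 = lim0 N / ev Ql 0 := by
  unfold ext
  rw [if_pos le_rfl]

lemma ext_one {N : Q4} {Ql : List ℤ} {L1 : ℝ} : ext N Ql L1 1 = L1 := by
  unfold ext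
  rw [if_neg (by norm_num), if_pos le_rfl]

lemma measurable_ext (N : Q4) (Ql : List ℤ) (L1 : ℝ) : Measurable (ext N Ql L1) := by
  unfold ext
  exact Measurable.ite measurableSet_Iic measurable_const
    (Measurable.ite measurableSet_Ici measurable_const
      ((measurable_G4 _).div (measurable_ev _)))

lemma ev_zero (l : List ℤ) : ev l 0 = (l.headD 0 : ℝ) := by
  cases l <;> simp

/-- the kernel check of the logarithms at `T = 0` -/
def okLog (N : Q4) : Bool :=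
  decide (N.n1.headD 0 + 2 * N.n2.headD 0 + N.n3.headD 0 = 0)

lemma okLog_spec {N : Q4} (h : okLog N = true) :
    ev N.n1 0 + 2 * ev N.n2 0 + ev N.n3 0 = 0 := by
  have h1 : N.n1.headD 0 + 2 * N.n2.headD 0 + N.n3.headD 0 = 0 := of_decide_eq_true h
  rw [ev_zero, ev_zero, ev_zero]
  have h2 : ((N.n1.headD 0 + 2 * N.n2.headD 0 + N.n3.headD 0 : ℤ) : ℝ) = 0 := by
    rw [h1]; norm_num
  push_cast at h2
  exact h2

lemma lgc_of_ok {N : Q4} (h : okLog N = true) : lgc N 0 = 0 := by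
  have h2 := okLog_spec h
  unfold lgc
  rw [y1_at0, y12_at0, b13_at0]
  linarith

/-- the limit at `T = 0` with `l = log (8 / 3)` and
`K = log (4 + √15) - √15 / 2 - log (3 / 2)` -/
lemma lim0_eq {N : Q4} (h : okLog N = true) : lim0 N = ev N.n0 0
    + (ev N.n1 0 + ev N.n3 0) / 2 * Real.log (8 / 3)
    - ev N.n3 0 * (Real.log (4 + √15) - √15 / 2 - Real.log (3 / 2)) := by
  have h2 := okLog_spec h
  have h3 : ev N.n2 0 = -(ev N.n1 0 + ev N.n3 0) / 2 := by linarith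
  unfold lim0
  rw [h3, L13_one]
  have l2 : Real.log (4 : ℝ) = 2 * Real.log 2 := by
    rw [show (4 : ℝ) = 2 ^ 2 by norm_num, Real.log_pow]; norm_num
  have l8 : Real.log (8 : ℝ) = 3 * Real.log 2 := by
    rw [show (8 : ℝ) = 2 ^ 3 by norm_num, Real.log_pow]; norm_num
  have l12 : Real.log (12 : ℝ) = 2 * Real.log 2 + Real.log 3 := by
    rw [show (12 : ℝ) = 4 * 3 by norm_num, Real.log_mul (by norm_num) (by norm_num), l2]
  have l25 : Real.log (25 : ℝ) = 2 * Real.log 5 := by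
    rw [show (25 : ℝ) = 5 ^ 2 by norm_num, Real.log_pow]; norm_num
  rw [Real.log_div (by norm_num) (by norm_num), Real.log_div (by norm_num) (by norm_num),
    Real.log_div (by norm_num) (by norm_num), Real.log_div (by norm_num) (by norm_num),
    Real.log_div (by norm_num) (by norm_num), l8, l12, l25]
  ring

lemma tendsto_ext_zero {N : Q4} {Ql : List ℤ} {L1 : ℝ} (h : okLog N = true)
    (hQ : ev Ql 0 ≠ 0) : Tendsto (ext N Ql L1) (𝓝[>] 0) (𝓝 (ext N Ql L1 0)) := by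
  rw [ext_zero]
  have h3 : Tendsto (ev Ql) (𝓝[>] 0) (𝓝 (ev Ql 0)) :=
    ((continuous_ev Ql).tendsto 0).mono_left nhdsWithin_le_nhds
  refine ((tendsto_G4_zero (lgc_of_ok h)).div h3 hQ).congr' ?_
  have h0 : ∀ᶠ T in 𝓝[>] (0 : ℝ), T ∈ Ioo (0 : ℝ) 1 := Ioo_mem_nhdsGT one_pos
  filter_upwards [h0] with T hT
  rw [ext_mid hT.1 hT.2]
  rfl

/-- the limit at `T = 1` -/
def Lim1 (N : Q4) (Ql : List ℤ) (L1 : ℝ) : Prop :=
  Tendsto (fun T => G4 N T / ev Ql T) (𝓝[<] 1) (𝓝 L1)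

lemma ev_Ioo : ∀ᶠ T in 𝓝[<] (1 : ℝ), T ∈ Ioo (0 : ℝ) 1 := Ioo_mem_nhdsLT one_pos

/-- the limit at `T = 1` from an approximation -/
theorem Lim1.of_bd {N : Q4} {Ql B : List ℤ} {D E : ℝ} (hD : 0 < D)
    (hb : ∀ T, 0 < T → T < 1 → |D * (G4 N T / ev Ql T) - ev B T| ≤ E * (1 - T)) :
    Lim1 N Ql (ev B 1 / D) := by
  have h3 : Tendsto (ev B) (𝓝[<] 1) (𝓝 (ev B 1)) :=
    ((continuous_ev B).tendsto 1).mono_left nhdsWithin_le_nhds
  have h4 : Tendsto (fun T : ℝ => E * (1 - T)) (𝓝[<] 1) (𝓝 0) := by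
    have h5 : Continuous fun T : ℝ => E * (1 - T) := by fun_prop
    have h6 := h5.tendsto 1
    rw [sub_self, mul_zero] at h6
    exact h6.mono_left nhdsWithin_le_nhds
  have h7 : Tendsto (fun T => D * (G4 N T / ev Ql T) - ev B T) (𝓝[<] 1) (𝓝 0) := by
    refine squeeze_zero_norm' ?_ h4
    filter_upwards [ev_Ioo] with T hT
    rw [Real.norm_eq_abs]
    exact hb T hT.1 hT.2
  have h8 := (h7.add h3).div_const D
  rw [zero_add] at h8
  refine h8.congr fun T => ?_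
  have := hD.ne'
  field_simp
  ring

/-- the limit at `T = 1` of a combination of such a function and a polynomial -/
theorem Lim1.of_eq {N M : Q4} {Ql Q' q : List ℤ} {c : ℤ} {L : ℝ}
    (hQ : ∀ T ∈ Ioo (0 : ℝ) 1, ev Ql T ≠ 0) (hQ' : ∀ T ∈ Ioo (0 : ℝ) 1, ev Q' T ≠ 0)
    (h : Q4.eq (N.mulp Q') (((M.mulp Ql).smul c).add ⟨mulL (mulL Ql q) Q', [], [], []⟩) = true)
    (hM : Lim1 M Q' L) : Lim1 N Ql (c * L + ev q 1) := by
  have h3 : Tendsto (ev q) (𝓝[<] 1) (𝓝 (ev q 1)) :=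
    ((continuous_ev q).tendsto 1).mono_left nhdsWithin_le_nhds
  refine ((hM.const_mul (c : ℝ)).add h3).congr' ?_
  filter_upwards [ev_Ioo] with T hT
  have h1 := G4_of_eq h T
  rw [G4_mulp, G4_add, G4_smul, G4_mulp] at h1
  have h2 : G4 ⟨mulL (mulL Ql q) Q', [], [], []⟩ T = ev Ql T * ev q T * ev Q' T := by
    simp only [G4, ev_mulL, ev_nil]
    ring
  rw [h2] at h1
  have a1 := hQ T hT
  have a2 := hQ' T hT
  field_simp
  linear_combination -h1

/-- a polynomial column -/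
theorem Lim1.of_poly {N : Q4} {Ql q : List ℤ} (hQ : ∀ T ∈ Ioo (0 : ℝ) 1, ev Ql T ≠ 0)
    (h : Q4.eq N ⟨mulL Ql q, [], [], []⟩ = true) : Lim1 N Ql (ev q 1) := by
  have h3 : Tendsto (ev q) (𝓝[<] 1) (𝓝 (ev q 1)) :=
    ((continuous_ev q).tendsto 1).mono_left nhdsWithin_le_nhds
  refine h3.congr' ?_
  filter_upwards [ev_Ioo] with T hT
  have h1 := G4_of_eq h T
  have h2 : G4 ⟨mulL Ql q, [], [], []⟩ T = ev Ql T * ev q T := by
    simp only [G4, ev_mulL, ev_nil]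
    ring
  rw [h1, h2]
  have a1 := hQ T hT
  field_simp

lemma continuousOn_ext {N : Q4} {Ql kap : List ℤ} {L1 : ℝ}
    (hk : eqL (mulL DelL (derL Ql)) (mulL kap Ql) = true)
    (hQ : ∀ T ∈ Ico (0 : ℝ) 1, ev Ql T ≠ 0) (h : okLog N = true) (h1 : Lim1 N Ql L1) :
    ContinuousOn (ext N Ql L1) (Icc 0 1) := by
  have hmid : ∀ T ∈ Ioo (0 : ℝ) 1, ext N Ql L1 T = G4 N T / ev Ql T :=
    fun T hT => ext_mid hT.1 hT.2
  have hlim0 := tendsto_ext_zero (L1 := L1) h (hQ 0 ⟨le_rfl, one_pos⟩)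
  have hlim1 : Tendsto (ext N Ql L1) (𝓝[<] 1) (𝓝 (ext N Ql L1 1)) := by
    rw [ext_one]
    refine h1.congr' ?_
    filter_upwards [ev_Ioo] with T hT
    rw [hmid T hT]
  intro T hT
  rcases hT.1.eq_or_lt with h2 | h2
  · rw [← h2]
    have h3 : ContinuousWithinAt (ext N Ql L1) (Ioi 0) 0 := hlim0
    have h4 : ContinuousWithinAt (ext N Ql L1) (Ici 0) 0 := continuousWithinAt_Ioi_iff_Ici.1 h3
    exact h4.mono Icc_subset_Ici_self
  · rcases hT.2.eq_or_lt with h3 | h3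
    · rw [h3]
      have h4 : ContinuousWithinAt (ext N Ql L1) (Iio 1) 1 := hlim1
      have h5 : ContinuousWithinAt (ext N Ql L1) (Iic 1) 1 := continuousWithinAt_Iio_iff_Iic.1 h4
      exact h5.mono Icc_subset_Iic_self
    · have h4 : ContinuousAt (fun T => G4 N T / ev Ql T) T :=
        (hasDerivAt_G4_divL hk N h2 h3 (hQ T ⟨h2.le, h3⟩)).continuousAt
      have h5 : ContinuousAt (ext N Ql L1) T := by
        refine h4.congr ?_
        filter_upwards [Ioo_mem_nhds h2 h3] with x hx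
        rw [hmid x hx]
      exact h5.continuousWithinAt

/-! ### Columns -/

/-- the data of a value column: `N0 = dn g`, `N1 = dn g'`, `NH = dn g / (1 - T) ^ k`, the power
`k`, the limit `L` of `g / (1 - T) ^ k` at `T = 1` -/
structure CD where
  N0 : Q4
  N1 : Q4
  NH : Q4
  k : ℕ
  L : ℝ

/-- the coefficient function -/
def CD.g (dn : List ℤ) (x : CD) (T : ℝ) : ℝ := (1 - T) ^ x.k * ext x.NH dn x.L T

/-- its derivative -/
def CD.g' (dn : List ℤ) (x : CD) (T : ℝ) : ℝ := G4 x.N1 T / ev dn T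

/-- `(1 - T) ^ k` -/
def omL (k : ℕ) : List ℤ :=
  Nat.rec (motive := fun _ => List ℤ) [1] (fun _ ih => mulL [1, -1] ih) k

lemma ev_omL (k : ℕ) (T : ℝ) : ev (omL k) T = (1 - T) ^ k := by
  induction k with
  | zero =>
    change ev [1] T = _
    simp
  | succ k ih =>
    change ev (mulL [1, -1] (omL k)) T = _
    rw [ev_mulL, ih, pow_succ]
    simp only [ev_cons, ev_nil]
    push_cast
    ring

/-- the kernel check of a column -/
def CD.ok (dn kap : List ℤ) (x : CD) : Bool :=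
  (Q4.eq x.N0 (x.NH.mulp (omL x.k)) && Q4.eq (dQk kap x.N0) (x.N1.mulp DelL)) && okLog x.NH

section

variable {dn kap : List ℤ} {x : CD}

lemma CD.g_mid (h : x.ok dn kap = true) {T : ℝ} (h0 : 0 < T) (h1 : T < 1) :
    x.g dn T = G4 x.N0 T / ev dn T := by
  unfold CD.ok at h
  rw [Bool.and_eq_true, Bool.and_eq_true] at h
  unfold CD.g
  rw [ext_mid h0 h1, G4_of_eq h.1.1 T, G4_mulp, ev_omL]
  ring

lemma CD.g_zero : x.g dn 0 = lim0 x.NH / ev dn 0 := by
  unfold CD.g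
  rw [ext_zero]
  ring

/-- the equation of the coefficient function -/
theorem CD.eq0 (h : x.ok dn kap = true) (hdn : ∀ T ∈ Ioo (0 : ℝ) 1, ev dn T ≠ 0) {T : ℝ}
    (hT : T ∈ Ioo (0 : ℝ) 1) : dZ (toPE dn) T * x.g dn T
      = ∑ p ∈ Finset.range 4, b4 p T * PE.ev (fT T) (x.N0.pe.getD p (.c 0)) := by
  unfold dZ
  rw [sum_b4, ev_toPE, CD.g_mid h hT.1 hT.2]
  have := hdn T hT
  field_simp

/-- the equation of the derivative -/
theorem CD.eq1 (hdn : ∀ T ∈ Ioo (0 : ℝ) 1, ev dn T ≠ 0) {T : ℝ}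
    (hT : T ∈ Ioo (0 : ℝ) 1) : dZ (toPE dn) T * x.g' dn T
      = ∑ p ∈ Finset.range 4, b4 p T * PE.ev (fT T) (x.N1.pe.getD p (.c 0)) := by
  unfold dZ CD.g'
  rw [sum_b4, ev_toPE]
  have := hdn T hT
  field_simp

/-- the equation of a row -/
theorem eq_row (N : Q4) (hdn : ∀ T ∈ Ioo (0 : ℝ) 1, ev dn T ≠ 0) {T : ℝ}
    (hT : T ∈ Ioo (0 : ℝ) 1) : dZ (toPE dn) T * (G4 N T / ev dn T)
      = ∑ p ∈ Finset.range 4, b4 p T * PE.ev (fT T) (N.pe.getD p (.c 0)) := by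
  unfold dZ
  rw [sum_b4, ev_toPE]
  have := hdn T hT
  field_simp

lemma CD.hasDerivAt_g (hk : eqL (mulL DelL (derL dn)) (mulL kap dn) = true)
    (hdn : ∀ T ∈ Ioo (0 : ℝ) 1, ev dn T ≠ 0) (h : x.ok dn kap = true) {T : ℝ}
    (hT : T ∈ Ioo (0 : ℝ) 1) : HasDerivAt (x.g dn) (x.g' dn T) T := by
  have hd := hasDerivAt_G4_divL hk x.N0 hT.1 hT.2 (hdn T hT)
  have hd2 : HasDerivAt (x.g dn) (G4 (dQk kap x.N0) T / (Del T * ev dn T)) T := by
    refine hd.congr_of_eventuallyEq ?_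
    filter_upwards [Ioo_mem_nhds hT.1 hT.2] with u hu
    exact CD.g_mid h hu.1 hu.2
  refine hd2.congr_deriv ?_
  unfold CD.ok at h
  rw [Bool.and_eq_true, Bool.and_eq_true] at h
  have h1 := G4_of_eq h.1.2 T
  rw [G4_mulp, ev_DelL] at h1
  unfold CD.g'
  rw [h1]
  have hD := (Del_pos hT.1 hT.2).ne'
  have := hdn T hT
  field_simp

/-- the limit of the value term -/
def CD.lim (K : VK) (x : CD) : ℝ := √6 * x.L / √6 ^ (K.i + K.j)

/-- **The regularity of the value terms of a column.** -/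
theorem CD.reg (hk : eqL (mulL DelL (derL dn)) (mulL kap dn) = true)
    (hdn : ∀ T ∈ Ico (0 : ℝ) 1, ev dn T ≠ 0) (h : x.ok dn kap = true)
    (h1 : Lim1 x.NH dn x.L) (K : VK) :
    ∀ t ∈ K.gts (x.g dn) (x.g' dn) x.k (x.lim K), t.Reg := by
  have hdn' : ∀ T ∈ Ioo (0 : ℝ) 1, ev dn T ≠ 0 := fun T hT => hdn T ⟨hT.1.le, hT.2⟩
  have hlog : okLog x.NH = true := by
    have h2 := h
    unfold CD.ok at h2
    rw [Bool.and_eq_true] at h2
    exact h2.2
  have hce := continuousOn_ext (L1 := x.L) hk hdn hlog h1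
  have hpow : Continuous fun T : ℝ => (1 - T) ^ x.k := by fun_prop
  have key := K.reg (g := x.g dn) (g' := x.g' dn) (gh := ext x.NH dn x.L) x.k
    (hpow.measurable.mul (measurable_ext _ _ _))
    ((measurable_G4 _).div (measurable_ev _))
    (hpow.continuousOn.mul hce)
    (ContinuousOn.div (fun T hT => (hasDerivAt_G4 x.N1 hT.1 hT.2).continuousAt.continuousWithinAt)
      (continuous_ev dn).continuousOn hdn')
    (fun T hT => CD.hasDerivAt_g hk hdn' h hT)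
    (fun T _ => rfl) hce
  rw [ext_one] at key
  exact key

end

/-- a column with its data -/
def colZ (dn : List ℤ) (x : VZ × CD) : VZ × (ℝ → ℝ) × (ℝ → ℝ) × ℕ × ℝ :=
  (x.1, x.2.g dn, x.2.g' dn, x.2.k, x.2.lim x.1.K)

/-- a row with its data -/
def rowZ (dn : List ℤ) (x : RZ × Q4) : RZ × (ℝ → ℝ) := (x.1, fun T => G4 x.2 T / ev dn T)

lemma map_colZ (dn : List ℤ) (l : List (VZ × CD)) :
    ((l.map (colZ dn)).map fun x => x.1) = l.map fun x => x.1 := by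
  rw [List.map_map]
  rfl

lemma map_rowZ (dn : List ℤ) (l : List (RZ × Q4)) :
    ((l.map (rowZ dn)).map fun x => x.1) = l.map fun x => x.1 := by
  rw [List.map_map]
  rfl

section

variable {dn kap : List ℤ} {l : List (VZ × CD)}

theorem hg0_Z (h : (l.all fun x => x.2.ok dn kap) = true)
    (hdn : ∀ T ∈ Ioo (0 : ℝ) 1, ev dn T ≠ 0) (hr : ∀ x ∈ l, x.1.r0 = x.2.N0.pe) :
    ∀ T ∈ Ioo (0 : ℝ) 1, ∀ x ∈ l.map (colZ dn), dZ (toPE dn) T * x.2.1 T
      = ∑ p ∈ Finset.range 4, b4 p T * PE.ev (fT T) (x.1.r0.getD p (.c 0)) := by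
  intro T hT x hx
  obtain ⟨u, hu, rfl⟩ := List.mem_map.1 hx
  change dZ (toPE dn) T * u.2.g dn T
      = ∑ p ∈ Finset.range 4, b4 p T * PE.ev (fT T) (u.1.r0.getD p (.c 0))
  rw [hr u hu]
  exact CD.eq0 (List.all_eq_true.1 h u hu) hdn hT

theorem hg1_Z (hdn : ∀ T ∈ Ioo (0 : ℝ) 1, ev dn T ≠ 0) (hr : ∀ x ∈ l, x.1.r1 = x.2.N1.pe) :
    ∀ T ∈ Ioo (0 : ℝ) 1, ∀ x ∈ l.map (colZ dn), dZ (toPE dn) T * x.2.2.1 T
      = ∑ p ∈ Finset.range 4, b4 p T * PE.ev (fT T) (x.1.r1.getD p (.c 0)) := by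
  intro T hT x hx
  obtain ⟨u, hu, rfl⟩ := List.mem_map.1 hx
  change dZ (toPE dn) T * u.2.g' dn T
      = ∑ p ∈ Finset.range 4, b4 p T * PE.ev (fT T) (u.1.r1.getD p (.c 0))
  rw [hr u hu]
  exact CD.eq1 hdn hT

theorem hz_Z {lR : List (RZ × Q4)} (hdn : ∀ T ∈ Ioo (0 : ℝ) 1, ev dn T ≠ 0)
    (hr : ∀ x ∈ lR, x.1.r = x.2.pe) :
    ∀ T ∈ Ioo (0 : ℝ) 1, ∀ x ∈ lR.map (rowZ dn), dZ (toPE dn) T * x.2 T
      = ∑ p ∈ Finset.range 4, b4 p T * PE.ev (fT T) (x.1.r.getD p (.c 0)) := by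
  intro T hT x hx
  obtain ⟨u, hu, rfl⟩ := List.mem_map.1 hx
  change dZ (toPE dn) T * (G4 u.2 T / ev dn T)
      = ∑ p ∈ Finset.range 4, b4 p T * PE.ev (fT T) (u.1.r.getD p (.c 0))
  rw [hr u hu]
  exact eq_row _ hdn hT

/-- **The regularity of all value terms.** -/
theorem reg_Z (hk : eqL (mulL DelL (derL dn)) (mulL kap dn) = true)
    (hdn : ∀ T ∈ Ico (0 : ℝ) 1, ev dn T ≠ 0) (h : (l.all fun x => x.2.ok dn kap) = true)
    (h1 : ∀ x ∈ l, Lim1 x.2.NH dn x.2.L) :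
    ∀ t ∈ lGZ (l.map (colZ dn)), t.Reg := by
  intro t ht
  rw [lGZ_eq] at ht
  unfold lG at ht
  obtain ⟨y, hy, hty⟩ := List.mem_flatMap.1 ht
  rw [List.map_map] at hy
  obtain ⟨u, hu, rfl⟩ := List.mem_map.1 hy
  exact CD.reg hk hdn (List.all_eq_true.1 h u hu) (h1 u hu) u.1.K t hty

/-- the check of the exponents of a column -/
def okExp (x : VZ × CD) : Bool :=
  decide ((x.1.K.i = 0 ∧ x.1.K.j = 0 ∧ x.1.K.q = x.2.k + 2 + 1 + x.1.K.a)
    ∨ x.1.K.q ≤ x.2.k + 2 + (x.1.K.a + x.1.K.i + x.1.K.j))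

/-- the exponents of all value terms -/
theorem ok_Z (h : (l.all okExp) = true) : ∀ t ∈ lGZ (l.map (colZ dn)), t.ok 2 := by
  intro t ht
  rw [lGZ_eq] at ht
  unfold lG at ht
  obtain ⟨y, hy, hty⟩ := List.mem_flatMap.1 ht
  rw [List.map_map] at hy
  obtain ⟨x, hx, rfl⟩ := List.mem_map.1 hy
  have h2 := of_decide_eq_true (show decide _ = true from List.all_eq_true.1 h x hx)
  unfold VK.gts at hty
  rcases List.mem_cons.1 hty with rfl | hty
  · rcases h2 with h2 | h2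
    · exact Or.inl ⟨h2.1, h2.2.1, h2.2.2⟩
    · exact Or.inr h2
  · rcases List.mem_cons.1 hty with rfl | hty
    · rcases h2 with h2 | h2
      · exact Or.inl ⟨h2.2.1, h2.1, h2.2.2⟩
      · refine Or.inr (h2.trans (le_of_eq ?_))
        change x.2.k + 2 + (x.1.K.a + x.1.K.i + x.1.K.j)
          = x.2.k + 2 + (x.1.K.a + x.1.K.j + x.1.K.i)
        omega
    · exact absurd hty List.not_mem_nil

/-- the weight on the diagonal -/
theorem w_diag_Z {E : Type*} [NormedAddCommGroup E] [InnerProductSpace ℝ E]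
    {lV : List (VZ × (ℝ → ℝ) × (ℝ → ℝ) × ℕ × ℝ)} :
    ∀ t ∈ lGZ lV, ∀ x N : E, ‖x‖ = 1 → ‖N‖ = 1 → ⟪x, N⟫ = 0 → t.w (dv x N x N 0) = 1 := by
  rw [lGZ_eq]
  exact w_diag

/-- the value at `T = 0` -/
theorem val_Z (d : R9) :
    ((lGZ (l.map (colZ dn))).map fun t => t.φ 0 * t.Q d).sum
      = √5 / 2 * (l.map fun x => lim0 x.2.NH / ev dn 0
        * PE.ev (vT 0 (d 0) (d 1) (d 2) (d 3)) x.1.K.Q).sum := by
  rw [lGZ_eq, val_zero, List.map_map, List.map_map]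
  congr 2
  refine List.map_congr_left fun x _ => ?_
  change x.2.g dn 0 * PE.ev _ x.1.K.Q = _
  rw [CD.g_zero]

end

end

end Vale.Agent.P224.SP
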