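import Vale.Agent.P224.H874.RegY
import Vale.Agent.P224.H874.RegF

/-!
The flux and the values at `T = 0` of the value columns.
-/

namespace Vale.Agent.P224.SP

open Vale.Agent.P224.UE Vale.Agent.P224.POS Vale.Agent.P224.PO Vale.Agent.P224.SO Set Filter Real
open scoped RealInnerProductSpace Topology

noncomputable section

/-- a flux column -/
def isFlZ (x : VZ × CD) : Prop := x.1.K.i = 0 ∧ x.1.K.j = 0 ∧ x.1.K.q = x.2.k + 2 + 1 + x.1.K.a

instance (x : VZ × CD) : Decidable (isFlZ x) := by unfold isFlZ; infer_instance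

/-- **The flux** of the value columns. -/
theorem flux_Z (dn : List ℤ) (l : List (VZ × CD)) (hq : ∀ x ∈ l, x.1.K.q ≤ 6) :
    OT.fluxC 5 2 (lGZ (l.map (colZ dn)))
      = 2 * √3 * (l.map fun x => if isFlZ x then x.2.L * (kq x.1.K.a x.1.K.q : ℝ) else 0).sum := by
  rw [lGZ_eq, flux_lG]
  have h3 : √(6 : ℝ) * √2 = 2 * √3 := by
    rw [← Real.sqrt_mul (by norm_num), show (6 * 2 : ℝ) = 2 ^ 2 * 3 by norm_num,
      Real.sqrt_mul (by positivity), Real.sqrt_sq (by norm_num)]
  induction l with
  | nil => simp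
  | cons x l ih =>
    rw [List.map_cons, List.map_cons, List.map_cons, List.sum_cons, List.map_cons, List.sum_cons,
      mul_add, ih fun u hu => hq u (List.mem_cons_of_mem _ hu)]
    congr 1
    by_cases h : isFlZ x
    · have h1 : isFl (toVE (colZ dn x)) := h
      rw [if_pos h, if_pos h1]
      obtain ⟨hi, hj, hk⟩ := h
      have h4 := kap2_five (a := x.1.K.a) (q := x.1.K.q) (by omega) (hq x List.mem_cons_self)
      change x.2.lim x.1.K * kap2 5 x.1.K.a x.1.K.q = _
      rw [h4, CD.lim, hi, hj, pow_zero, div_one]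
      linear_combination (x.2.L * (kq x.1.K.a x.1.K.q : ℝ)) * h3
    · have h1 : ¬ isFl (toVE (colZ dn x)) := h
      rw [if_neg h, if_neg h1, mul_zero]

/-- the exponents and the values at `T = 0` -/
theorem map_zero_Z {dn : List ℤ} (l : List (VZ × CD)) :
    (((l.map (colZ dn)).map toVE).map fun x => (x.K, x.g 0))
      = l.map fun x => (x.1.K, lim0 x.2.NH / ev dn 0) := by
  rw [List.map_map, List.map_map]
  refine List.map_congr_left fun x _ => ?_
  change (x.1.K, x.2.g dn 0) = _
  rw [CD.g_zero]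

end

end Vale.Agent.P224.SP
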