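import Vale.Agent.P224.SP.Z5.Bd
import Vale.Agent.P224.H874.RegD

/-!
The base value columns of the certificate in dimension five: tests, limits, flux, values at `0`.
-/

namespace Vale.Agent.P224.SP.Z5

open Vale.Agent.P224.UE Vale.Agent.P224.POS Vale.Agent.P224.PO Vale.Agent.P224.SO Set Filter Real
open scoped RealInnerProductSpace Topology

noncomputable section

lemma dl_eq : dl = PivD.dn := rfl

lemma dl_pos {T : ℝ} (h0 : 0 ≤ T) (h1 : T < 1) : 0 < ev dl T := PivD.dn_pos h0 h1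

lemma kap_dl : eqL (mulL DelL (derL dl)) (mulL PivD.kap dl) = true := PivD.kap_ok

/-- the tests of the base columns -/
theorem ok_lb : (lb.all (VBz.ok dl PivD.kap)) = true := by decide +kernel

lemma lim_of {N : Q4} {B : List ℤ} {E h : ℕ} (hh : h ≠ 0)
    (hb : ∀ T : ℝ, 0 < T → T < 1 → |(DD : ℝ) * (G4 N T / ev dl T) - ev B T| ≤ E * (1 - T) ^ h) :
    Lim1 N dl (((B.sum : ℤ) : ℝ) / DD) := by
  have h1 := Lim1.of_bdh (N := N) (Ql := dl) (B := B) (D := (DD : ℝ)) (E := (E : ℝ))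
    (by norm_num [DD]) hh (Nat.cast_nonneg E) hb
  rw [ev_one_list] at h1
  exact h1

set_option maxRecDepth 20000 in
/-- the limits at `T = 1` -/
theorem lim_lb : ∀ x ∈ lb, Lim1 x.N0 dl (x.L1 DD) :=
  List.forall_mem_cons.2 ⟨lim_of (h := vb0.h0) one_ne_zero fun _ h0 h1 => br (r := vb0.N0) (B := vb0.B0) (E := vb0.E0) rfl (K00.bd h0 h1),
  List.forall_mem_cons.2 ⟨lim_of (h := vb1.h0) one_ne_zero fun _ h0 h1 => br (r := vb1.N0) (B := vb1.B0) (E := vb1.E0) rfl (K01.bd h0 h1),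
  List.forall_mem_cons.2 ⟨lim_of (h := vb2.h0) one_ne_zero fun _ h0 h1 => br (r := vb2.N0) (B := vb2.B0) (E := vb2.E0) rfl (K02.bd h0 h1),
  List.forall_mem_cons.2 ⟨lim_of (h := vb3.h0) one_ne_zero fun _ h0 h1 => br (r := vb3.N0) (B := vb3.B0) (E := vb3.E0) rfl (K03.bd h0 h1),
  List.forall_mem_cons.2 ⟨lim_of (h := vb4.h0) one_ne_zero fun _ h0 h1 => br (r := vb4.N0) (B := vb4.B0) (E := vb4.E0) rfl (K04.bd h0 h1),
  List.forall_mem_cons.2 ⟨lim_of (h := vb5.h0) one_ne_zero fun _ h0 h1 => br (r := vb5.N0) (B := vb5.B0) (E := vb5.E0) rfl (K05.bd h0 h1),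
  List.forall_mem_cons.2 ⟨lim_of (h := vb6.h0) one_ne_zero fun _ h0 h1 => br (r := vb6.N0) (B := vb6.B0) (E := vb6.E0) rfl (K06.bd h0 h1),
  List.forall_mem_cons.2 ⟨lim_of (h := vb7.h0) one_ne_zero fun _ h0 h1 => br (r := vb7.N0) (B := vb7.B0) (E := vb7.E0) rfl (K07.bd h0 h1),
  List.forall_mem_cons.2 ⟨lim_of (h := vb8.h0) one_ne_zero fun _ h0 h1 => br (r := vb8.N0) (B := vb8.B0) (E := vb8.E0) rfl (K08.bd h0 h1),
  List.forall_mem_cons.2 ⟨lim_of (h := vb9.h0) one_ne_zero fun _ h0 h1 => br (r := vb9.N0) (B := vb9.B0) (E := vb9.E0) rfl (K09.bd h0 h1),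
  fun x hx => absurd hx List.not_mem_nil⟩⟩⟩⟩⟩⟩⟩⟩⟩⟩

lemma q_lb' : (lb.all fun x => Nat.ble x.K.q 6) = true := by decide +kernel

lemma q_lb : ∀ x ∈ lb, x.K.q ≤ 6 := fun x hx =>
  Nat.le_of_ble_eq_true (List.all_eq_true.1 q_lb' x hx)

lemma flux_lb : 25 * flB lb = 24 * (48 * (DD : ℤ)) := by decide +kernel

set_option maxRecDepth 20000 in
/-- the values at `T = 0` -/
theorem zero_lb : (lb.map fun x => (x.K, x.ge dl DD 0)) = pivV PivD.ll PivD.KK :=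
  zero_B ok_lb dl_eq rfl

/-- **The regularity of all value terms.** -/
theorem reg {c0 kB kF : ℕ} {lf : List VFz} (hf : (lf.all VFz.ok) = true) :
    ∀ t ∈ lGZ (lVE dl c0 DD kB kF lb lf), t.Reg :=
  reg_E kap_dl (fun _ hT => (dl_pos hT.1 hT.2).ne') ok_lb hf lim_lb

/-- the exponents of all value terms -/
theorem ok {c0 kB kF : ℕ} {lf : List VFz} : ∀ t ∈ lGZ (lVE dl c0 DD kB kF lb lf), t.ok 2 :=
  ok_E ok_lb

/-- the flux -/
theorem flux {c0 kB kF : ℕ} {lf : List VFz} (hq : (lf.all fun x => Nat.ble x.K.q 6) = true)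
    (h2 : flF lf = 0) : OT.fluxC 5 2 (lGZ (lVE dl c0 DD kB kF lb lf)) = 48 / 25 * √3 :=
  flux_E ok_lb q_lb (fun x hx => Nat.le_of_ble_eq_true (List.all_eq_true.1 hq x hx)) flux_lb
    (by norm_num [DD]) h2

end

end Vale.Agent.P224.SP.Z5
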