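import Vale.Agent.P224.H874.Z5B
import Vale.Agent.P224.SP.Z5.Pos
import Vale.Agent.P224.SP.ZeroD

/-!
All value columns of the certificate in dimension five.
-/

namespace Vale.Agent.P224.SP.Z5

open Vale.Agent.P224.UE Vale.Agent.P224.POS Vale.Agent.P224.PO Vale.Agent.P224.SO Set Filter Real
open scoped RealInnerProductSpace Topology

noncomputable section

/-- the tests of the free columns -/
theorem ok_lf : (lf.all VFz.ok) = true := by decide +kernel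

lemma q_lf : (lf.all fun x => Nat.ble x.K.q 6) = true := by decide +kernel

/-- the flux of the free columns -/
theorem flux_lf : flF lf = 0 := by decide +kernel

/-- the value terms -/
def lT : List GT := lGZ (lVE dl c0 DD kB kF lb lf)

/-- the regularity of all value terms -/
theorem reg_lT : ∀ t ∈ lT, t.Reg := reg ok_lf

/-- the exponents of all value terms -/
theorem ok_lT : ∀ t ∈ lT, t.ok 2 := ok

/-- the flux -/
theorem flux_lT : OT.fluxC 5 2 lT = 48 / 25 * √3 := flux q_lf flux_lf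

set_option maxRecDepth 100000 in
/-- the values at `T = 0` of the free columns -/
theorem zero_lf : (lf.map fun x => (x.K, x.p.headD 0)) = F0 := rfl

lemma c0_eq : ((c0 : ℕ) : ℝ) = 20132659200 := by norm_num [c0]

/-- **The inequality at `T = 0`.** -/
theorem h0_lT {E : Type*} [NormedAddCommGroup E] [InnerProductSpace ℝ E]
    (x N y w : E) (hx : ‖x‖ = 1) (hN : ‖N‖ = 1) (hy : ‖y‖ = 1) (hw : ‖w‖ = 1)
    (hxN : ⟪x, N⟫ = 0) (hyw : ⟪y, w⟫ = 0) :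
    (lT.map fun t => t.φ 0 * t.Q (dv x N y w 0)).sum
      ≤ √5 * (1 + gamD * dv x N y w (0 : E) 3
          - (rhoD * RF (-(187 / 100)) 14 (-(√6 / 6)) (dv x N y w 0)
            + kapD * dv x N y w (0 : E) 0 ^ 3) + R00 (√6) (Real.log (8 / 3)) kapD (dv x N y w 0)
          - (1 / 15 * ((⟪x, w⟫ - ⟪N, y⟫) / 2) ^ 2
            + 1 / 500 * (⟪N, w⟫ - ⟪x, y⟫ - √6 / 6 * ((⟪x, w⟫ + ⟪N, y⟫) / 2)) ^ 2)) := by
  unfold lT
  rw [lGZ_eq, lVE_VE]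
  refine h0_D ?_ ?_ x N y w hx hN hy hw hxN hyw
  · rw [List.map_map]
    exact zero_lb
  · rw [List.map_map]
    refine (zero_F (c0 := c0) lf).trans ?_
    rw [zero_lf, c0_eq]

/-- the weight on the diagonal -/
theorem w_lT {E : Type*} [NormedAddCommGroup E] [InnerProductSpace ℝ E] :
    ∀ t ∈ lT, ∀ x N : E, ‖x‖ = 1 → ‖N‖ = 1 → ⟪x, N⟫ = 0 → t.w (dv x N x N 0) = 1 :=
  w_diag_Z

/-- the rows -/
def sT : OT.SCert := lRZ (lRD dl c0 kB kF rb rf)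

/-- **The inequality in `(0, 1)`.** -/
theorem hpos_lT {E : Type*} [NormedAddCommGroup E] [InnerProductSpace ℝ E] :
    ∀ T ∈ Ioo (0 : ℝ) 1, ∀ x N y w : E, ‖x‖ = 1 → ‖N‖ = 1 → ‖y‖ = 1 → ‖w‖ = 1 →
      ⟪x, N⟫ = 0 → ⟪y, w⟫ = 0 → gS' (lT.map GT.v) T (dv x N y w 0)
        ≤ (OT.Rs 5 sT T (dv x N y w 0) + OT.Rs 5 sT T (sw9 (dv x N y w 0))) / 2 := by
  intro T hT x N y w hx hN hy hw hxN hyw
  unfold lT sT
  rw [gS'_lVE hT]
  exact hpos (κB DD) (κF c0) T hT x N y w hx hN hy hw hxN hyw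

/-- the inequality in `(0, 1)` with the rows of `RoT` -/
theorem hposR_lT {r l κ : ℝ} {E : Type*} [NormedAddCommGroup E] [InnerProductSpace ℝ E] :
    ∀ T ∈ Ioo (0 : ℝ) 1, ∀ x N y w : E, ‖x‖ = 1 → ‖N‖ = 1 → ‖y‖ = 1 → ‖w‖ = 1 →
      ⟪x, N⟫ = 0 → ⟪y, w⟫ = 0 → gS' (lT.map GT.v) T (dv x N y w 0)
        ≤ RoT r l κ sT T (dv x N y w 0) := by
  intro T hT x N y w hx hN hy hw hxN hyw
  rw [RoT_pos _ _ _ _ hT.1]
  exact hpos_lT T hT x N y w hx hN hy hw hxN hyw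

/-- **The certificate with a parameter in dimension five.** -/
theorem pack {E : Type*} [NormedAddCommGroup E] [InnerProductSpace ℝ E] :
    ∃ (l : List GT) (Sc : OT.SCert), (∀ t ∈ l, t.Reg) ∧ (∀ t ∈ l, t.ok 2)
      ∧ (∀ t ∈ l, ∀ x N : E, ‖x‖ = 1 → ‖N‖ = 1 → ⟪x, N⟫ = 0 → t.w (dv x N x N 0) = 1)
      ∧ OT.fluxC 5 2 l = 48 / 25 * √3
      ∧ (∀ T ∈ Ioo (0 : ℝ) 1, ∀ x N y w : E, ‖x‖ = 1 → ‖N‖ = 1 → ‖y‖ = 1 → ‖w‖ = 1 →
        ⟪x, N⟫ = 0 → ⟪y, w⟫ = 0 → gS' (l.map GT.v) T (dv x N y w 0)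
          ≤ (OT.Rs 5 Sc T (dv x N y w 0) + OT.Rs 5 Sc T (sw9 (dv x N y w 0))) / 2)
      ∧ ∀ x N y w : E, ‖x‖ = 1 → ‖N‖ = 1 → ‖y‖ = 1 → ‖w‖ = 1 → ⟪x, N⟫ = 0 → ⟪y, w⟫ = 0 →
        (l.map fun t => t.φ 0 * t.Q (dv x N y w 0)).sum
          ≤ √5 * (1 + gamD * dv x N y w (0 : E) 3
            - (rhoD * RF (-(187 / 100)) 14 (-(√6 / 6)) (dv x N y w 0)
              + kapD * dv x N y w (0 : E) 0 ^ 3) + R00 (√6) (Real.log (8 / 3)) kapD (dv x N y w 0)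
            - (1 / 15 * ((⟪x, w⟫ - ⟪N, y⟫) / 2) ^ 2
              + 1 / 500 * (⟪N, w⟫ - ⟪x, y⟫ - √6 / 6 * ((⟪x, w⟫ + ⟪N, y⟫) / 2)) ^ 2)) :=
  ⟨lT, sT, reg_lT, ok_lT, w_lT, flux_lT, hpos_lT, h0_lT⟩

end

end Vale.Agent.P224.SP.Z5
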